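import Vale.Agent.N218.St
import Vale.Agent.P218FS.Bridge
import Vale.Agent.P218FT.Local2

/-! The norm of the second fundamental form of a parametrised surface is that of its image. -/

open MeasureTheory Set Filter Topology
open scoped Manifold ContDiff RealInnerProductSpace

namespace Vale.Agent.N218

open Vale.Agent.P218FT Vale.Agent.P218FS

/-- second derivatives of a parametrised piece of a level set -/
lemma level_second {f : R2 → R3} {u : R2} (hf : ContDiffAt ℝ 2 f u)
    {w : E3 → ℝ} (hw : ContDiffAt ℝ 2 w (f u)) (h0 : ∀ᶠ v in 𝓝 u, w (f v) = 0) (a b : R2) :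
    ⟪gradient w (f u), fderiv ℝ (fderiv ℝ f) u a b⟫ +
      ⟪fderiv ℝ (gradient w) (f u) (fderiv ℝ f u a), fderiv ℝ f u b⟫ = 0 := by
  have hfev : ∀ᶠ v in 𝓝 u, ContDiffAt ℝ 2 f v := hf.eventually (by simp)
  have hwev : ∀ᶠ v in 𝓝 u, ContDiffAt ℝ 2 w (f v) :=
    hf.continuousAt.tendsto.eventually (hw.eventually (by simp))
  have hz : ∀ᶠ v in 𝓝 u, ⟪gradient w (f v), fderiv ℝ f v b⟫ = 0 := by
    have h1 : (fun v => w (f v)) =ᶠ[𝓝 u] fun _ => 0 := h0
    filter_upwards [hfev, hwev, h1.eventuallyEq_nhds] with v a1 a2 a3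
    have h3 := (a2.differentiableAt (by norm_num)).hasFDerivAt.comp v
      (a1.differentiableAt (by norm_num)).hasFDerivAt
    have h4 : HasFDerivAt (w ∘ f) (0 : R2 →L[ℝ] ℝ) v :=
      (hasFDerivAt_const (0 : ℝ) v).congr_of_eventuallyEq a3
    rw [P218FS.inner_gradient]
    exact congrArg (fun L : R2 →L[ℝ] ℝ => L b) (h3.unique h4)
  have d1 : DifferentiableAt ℝ (fderiv ℝ f) u :=
    (hf.fderiv_right (m := 1) (by norm_num)).differentiableAt (by norm_num)
  have d2 : HasFDerivAt (fun v => fderiv ℝ f v b)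
      ((ContinuousLinearMap.apply ℝ R3 b).comp (fderiv ℝ (fderiv ℝ f) u)) u :=
    (ContinuousLinearMap.apply ℝ R3 b).hasFDerivAt.comp u d1.hasFDerivAt
  have d3 : HasFDerivAt (fun v => gradient w (f v))
      ((fderiv ℝ (gradient w) (f u)).comp (fderiv ℝ f u)) u :=
    (differentiableAt_gradient hw).hasFDerivAt.comp u
      (hf.differentiableAt (by norm_num)).hasFDerivAt
  have d4 := d3.inner ℝ d2
  have d5 : HasFDerivAt (fun v => ⟪gradient w (f v), fderiv ℝ f v b⟫) (0 : R2 →L[ℝ] ℝ) u :=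
    (hasFDerivAt_const (0 : ℝ) u).congr_of_eventuallyEq hz
  have := congrArg (fun L : R2 →L[ℝ] ℝ => L a) (d4.unique d5)
  simpa [fderivInnerCLM_apply] using this

/-- the inverse metric in an orthonormal frame -/
lemma inv_metric {f : R2 → R3} {u : R2} {a : Fin 2 → R2}
    (ha : Orthonormal ℝ fun k => fderiv ℝ f u (a k)) (i j : Fin 2) :
    (metric f u)⁻¹ i j = a 0 i * a 0 j + a 1 i * a 1 j := by
  set A : Matrix (Fin 2) (Fin 2) ℝ := Matrix.of fun i k => a k i with hA
  have hL : ∀ k, fderiv ℝ f u (a k) = a k 0 • pd f 0 u + a k 1 • pd f 1 u := by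
    intro k
    conv_lhs => rw [r2_eq (a k)]
    simp only [map_add, map_smul, pd]
  have h1 : A.transpose * metric f u * A = 1 := by
    ext k l
    have := orthonormal_iff_ite.1 ha k l
    rw [hL, hL] at this
    simp only [inner_add_left, inner_add_right, inner_smul_left, inner_smul_right,
      conj_trivial] at this
    simp only [Matrix.mul_apply, Fin.sum_univ_two, Matrix.transpose_apply, hA, metric,
      Matrix.of_apply, Matrix.one_apply]
    rw [← this]; ring
  have h2 : A * A.transpose * metric f u = 1 := by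
    have := mul_eq_one_comm.1 h1
    rwa [← Matrix.mul_assoc] at this
  have h3 : (metric f u)⁻¹ = A * A.transpose := Matrix.inv_eq_left_inv h2
  rw [h3]
  simp only [Matrix.mul_apply, Fin.sum_univ_two, Matrix.transpose_apply, hA, Matrix.of_apply]

/-- `|A|²` of a parametrised piece of a surface -/
lemma normSqAAt_eq {f : R2 → R3} {u : R2} (hf : ContDiffAt ℝ 2 f u)
    (hL : Function.Injective (fderiv ℝ f u)) {N : Set E3} (hN : IsSurf N)
    (h0 : ∀ᶠ v in 𝓝 u, f v ∈ N) : St.normSqAAt f u = a2 N (f u) := by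
  have hx : f u ∈ N := h0.self_of_nhds
  have he := hN.isEqn hx
  have hz : ∀ᶠ v in 𝓝 u, eqn N (f u) (f v) = 0 := by
    filter_upwards [h0, hf.continuousAt.tendsto.eventually he.2.2] with v a1 a2 using a2.1 a1
  have hn : ∀ v, ⟪fderiv ℝ f u v, nu N (f u)⟫ = 0 :=
    (level_meanCurv hf hL he.two.contDiffAt he.2.1 hz).1
  have hn1 := hN.norm_nu hx
  set n := nu N (f u) with hnd
  have hn0 : n ≠ 0 := by
    intro h; rw [h, norm_zero] at hn1; exact zero_ne_one hn1
  have hnn : ⟪n, n⟫ = 1 := by rw [real_inner_self_eq_norm_sq, hn1]; norm_num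
  have hn' : ∀ v, ⟪n, fderiv ℝ f u v⟫ = 0 := fun v => by rw [real_inner_comm]; exact hn v
  have h3 : (fderiv ℝ f u).rangeᗮ = ℝ ∙ n := by
    rw [range_eq_orth hL hn0 hn, Submodule.orthogonal_orthogonal]
  have h4 : ∀ X : R3, P218FS.St.normalPart f u X = ⟪X, n⟫ • n := fun X => by
    refine Submodule.eq_starProjection_of_mem_of_inner_eq_zero ?_ ?_
    · rw [h3]; exact Submodule.smul_mem _ _ (Submodule.mem_span_singleton_self _)
    · intro y hy
      rw [h3, Submodule.mem_span_singleton] at hy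
      obtain ⟨c, rfl⟩ := hy
      simp [inner_sub_left, inner_smul_left, inner_smul_right, hn1]
  have h5 : ∀ a b : R2, ⟪fderiv ℝ (fderiv ℝ f) u a b, n⟫ =
      ⟪sh N (f u) (fderiv ℝ f u a), fderiv ℝ f u b⟫ := fun a b => by
    have k := level_second hf he.two.contDiffAt hz a b
    have g0 : ‖gradient (eqn N (f u)) (f u)‖ ≠ 0 := norm_ne_zero_iff.2 he.2.1
    rw [sh, inner_shw]
    rw [show nuw (eqn N (f u)) (f u) = n from rfl, pt_of_orth (hn' a), pt_of_orth (hn' b), hnd, nu,
      nuw, inner_smul_right, real_inner_comm (gradient _ _)]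
    linear_combination (‖gradient (eqn N (f u)) (f u)‖⁻¹) * k
  obtain ⟨e₀, e₁, T⟩ := exists_triple hn1
  obtain ⟨a₀, ha₀⟩ := exists_preimage hL hn0 hn T.ac
  obtain ⟨a₁, ha₁⟩ := exists_preimage hL hn0 hn T.bc
  have hon : Orthonormal ℝ fun k => fderiv ℝ f u (![a₀, a₁] k) := by
    have ba : ⟪e₁, e₀⟫ = 0 := by rw [real_inner_comm]; exact T.ab
    refine ⟨fun i => ?_, fun i j hij => ?_⟩
    · fin_cases i <;> simp [ha₀, ha₁, T.na, T.nb]
    · fin_cases i <;> fin_cases j <;> simp_all [T.ab]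
  have hg := inv_metric hon
  have hs : ∀ i j, St.sff f u i j = ⟪sh N (f u) (fderiv ℝ f u (EuclideanSpace.single i 1)),
      fderiv ℝ f u (EuclideanSpace.single j 1)⟫ • n := fun i j => by
    rw [St.sff, h4, ← h5]
    exact congrArg (fun X => ⟪X, n⟫ • n) (pd_pd hf i j)
  have e0 : e₀ = a₀ 0 • fderiv ℝ f u (EuclideanSpace.single 0 1) +
      a₀ 1 • fderiv ℝ f u (EuclideanSpace.single 1 1) := by
    rw [← ha₀]; conv_lhs => rw [r2_eq a₀]
    simp only [map_add, map_smul]
  have e1 : e₁ = a₁ 0 • fderiv ℝ f u (EuclideanSpace.single 0 1) +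
      a₁ 1 • fderiv ℝ f u (EuclideanSpace.single 1 1) := by
    rw [← ha₁]; conv_lhs => rw [r2_eq a₁]
    simp only [map_add, map_smul]
  have sy := hN.sh_symm hx (fderiv ℝ f u (EuclideanSpace.single 1 1))
    (fderiv ℝ f u (EuclideanSpace.single 0 1))
  rw [real_inner_comm (sh N (f u) (fderiv ℝ f u (EuclideanSpace.single 0 1)))] at sy
  rw [hN.a2_eq hx T, St.normSqAAt]
  change ∑ i, ∑ j, ∑ k, ∑ l, (metric f u)⁻¹ i k * (metric f u)⁻¹ j l * _ = _
  simp only [hg, hs, Fin.sum_univ_two, real_inner_smul_left, real_inner_smul_right, hnn,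
    Matrix.cons_val_zero, Matrix.cons_val_one]
  rw [e0, e1]
  simp only [map_add, map_smul, inner_add_left, inner_add_right, real_inner_smul_left,
    real_inner_smul_right, sy]
  ring

variable {N : Type*} [TopologicalSpace N] [ChartedSpace R2 N] {F : ℝ → N → R3} {T : ℝ}
  [IsManifold (𝓡 2) ∞ N] [CompactSpace N] [T2Space N]

theorem normSqA_eq (h : IsSmoothMCF F T) {t : ℝ} (ht : t ∈ Ioo 0 T) (p : N) :
    St.normSqA (F t) p = a2 (range (F t)) (F t p) := by
  have ht' : t ∈ Ico 0 T := ⟨ht.1.le, ht.2⟩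
  have := normSqAAt_eq (h.contDiffAt_two p ht') (h.injective_fderiv p ht' (mem_chart_target R2 p))
    (h.isMCF.isSurf ht) (Eventually.of_forall fun v => mem_range_self _)
  rwa [rep_self] at this

end Vale.Agent.N218
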