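import Vale.Agent.P218FT.ConvAll
import Vale.Agent.P218S7.Ultra
import Mathlib.MeasureTheory.Integral.RieszMarkovKakutani.Real

/-! Smooth convergence of the rescalings along the whole filter; planes and regular points. -/

open MeasureTheory Set Filter Topology Metric Asymptotics
open scoped ENNReal NNReal ContDiff RealInnerProductSpace

namespace Vale.Agent.N218

open Vale.Agent.P218FT Vale.Agent.P218FT.Conv

section surf

variable {N S : Set E3} {x : E3}

/-- a second-order jet, with the remainder divided out -/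
lemma jet' (hN : IsSurf N) (hx : x ∈ N) {a : E3} (ha : ⟪nu N x, a⟫ = 0) :
    ∃ v : ℝ → E3, Tendsto v (𝓝[>] 0) (𝓝 ((2 : ℝ)⁻¹ • (⟪sh N x a, a⟫ • nu N x))) ∧
      ∀ᶠ σ in 𝓝[>] (0 : ℝ), x + σ • (a + σ • v σ) ∈ N := by
  obtain ⟨p, h1, h2⟩ := hN.jet hx ha
  set k := ⟪sh N x a, a⟫ • nu N x
  have h3 := h2.tendsto_inv_smul_nhds_zero
  refine ⟨fun σ => (2 : ℝ)⁻¹ • k + (σ ^ 2)⁻¹ • (p σ - (x + σ • a + (σ ^ 2 / 2) • k)), ?_, ?_⟩
  · simpa using (h3.const_add ((2 : ℝ)⁻¹ • k)).mono_left nhdsWithin_le_nhds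
  · filter_upwards [mem_nhdsWithin_of_mem_nhds h1, self_mem_nhdsWithin] with σ a1 a2
    have a3 : σ ≠ 0 := ne_of_gt a2
    convert a1 using 1
    have a4 : σ * (σ * (σ ^ 2)⁻¹) = 1 := by field_simp
    simp only [smul_add, smul_smul, a4, one_smul]
    have a5 : σ * (σ * 2⁻¹) = σ ^ 2 / 2 := by ring
    rw [a5]
    abel

lemma tendsto_dir {a w : E3} {v : ℝ → E3} (h : Tendsto v (𝓝[>] 0) (𝓝 w)) :
    Tendsto (fun σ : ℝ => a + σ • v σ) (𝓝[>] 0) (𝓝 a) := by
  have h0 : Tendsto (fun σ : ℝ => σ) (𝓝[>] 0) (𝓝 0) := tendsto_id.mono_left nhdsWithin_le_nhds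
  simpa using (h0.smul h).const_add a

/-- the two-point bound is a bound for the second fundamental form -/
lemma sh_le (hN : IsSurf N) (hx : x ∈ N) {r C : ℝ} (hr : 0 < r) (h : TwoPt N x r C) {a : E3}
    (ha : ⟪nu N x, a⟫ = 0) : |⟪sh N x a, a⟫| ≤ 2 * C * ‖a‖ ^ 2 := by
  obtain ⟨v, h1, h2⟩ := jet' hN hx ha
  have h0 : Tendsto (fun σ : ℝ => σ) (𝓝[>] 0) (𝓝 0) := tendsto_id.mono_left nhdsWithin_le_nhds
  have h3 := tendsto_dir (a := a) h1
  have h4 : Tendsto (fun σ : ℝ => ‖σ • (a + σ • v σ)‖) (𝓝[>] 0) (𝓝 0) := by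
    simpa using (h0.smul h3).norm
  have h5 := le_of_tendsto_of_tendsto ((h1.inner (𝕜 := ℝ) (tendsto_const_nhds (x := nu N x))).abs)
    ((h3.norm.pow 2).const_mul C) (by
      filter_upwards [h2, h4.eventually (gt_mem_nhds hr), self_mem_nhdsWithin] with σ a1 a2 a3
      have a4 : 0 < σ := a3
      have a5 := h _ a1 (by rw [add_sub_cancel_left]; exact a2.le)
      rw [add_sub_cancel_left, real_inner_smul_left, inner_add_left, real_inner_comm _ a, ha,
        zero_add, real_inner_smul_left, norm_smul, abs_mul, abs_mul, Real.norm_eq_abs,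
        abs_of_pos a4] at a5
      have a6 : 0 < σ * σ := by positivity
      refine le_of_mul_le_mul_left ?_ a6
      nlinarith)
  have hn : ⟪nu N x, nu N x⟫ = 1 := by rw [real_inner_self_eq_norm_sq, hN.norm_nu hx]; norm_num
  rw [real_inner_smul_left, real_inner_smul_left, hn, mul_one, abs_mul,
    abs_of_pos (by norm_num : (0 : ℝ) < 2⁻¹)] at h5
  linarith

lemma a2_le (hN : IsSurf N) (hx : x ∈ N) {r C : ℝ} (hr : 0 < r) (h : TwoPt N x r C) :
    a2 N x ≤ 40 * C ^ 2 := by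
  obtain ⟨a, b, T⟩ := exists_triple (hN.norm_nu hx)
  have ha : ⟪nu N x, a⟫ = 0 := by rw [real_inner_comm]; exact T.ac
  have hb : ⟪nu N x, b⟫ = 0 := by rw [real_inner_comm]; exact T.bc
  have h1 := sh_le hN hx hr h ha
  have h2 := sh_le hN hx hr h hb
  have h3 := sh_le hN hx hr h (a := a + b) (by rw [inner_add_right, ha, hb, add_zero])
  have h4 : ‖a + b‖ ^ 2 = 2 := by rw [norm_add_sq_real, T.na, T.nb, T.ab]; norm_num
  have h5 : ⟪sh N x b, a⟫ = ⟪sh N x a, b⟫ := by rw [hN.sh_symm hx b a, real_inner_comm]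
  rw [h4, map_add, inner_add_left, inner_add_right, inner_add_right, h5] at h3
  rw [T.na] at h1
  rw [T.nb] at h2
  rw [hN.a2_eq hx T]
  obtain ⟨b1, b2⟩ := abs_le.1 h1
  obtain ⟨b3, b4⟩ := abs_le.1 h2
  obtain ⟨b5, b6⟩ := abs_le.1 h3
  have c1 : ⟪sh N x a, a⟫ ^ 2 ≤ (2 * C) ^ 2 := sq_le_sq' (by linarith) (by linarith)
  have c2 : ⟪sh N x b, b⟫ ^ 2 ≤ (2 * C) ^ 2 := sq_le_sq' (by linarith) (by linarith)
  have c3 : ⟪sh N x a, b⟫ ^ 2 ≤ (4 * C) ^ 2 := sq_le_sq' (by linarith) (by linarith)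
  linarith

/-- a surface which is tangent to the position vector is a cone -/
lemma cone_of (hS : IsSurf S) (h : ∀ x ∈ S, ⟪x, nu S x⟫ = 0) (hx : x ∈ S) {c : ℝ} (hc : 0 < c) :
    c • x ∈ S := by
  have γc : Continuous fun r : ℝ => Real.exp r • x := by fun_prop
  have loc : ∀ r : ℝ, Real.exp r • x ∈ S → ∀ᶠ u in 𝓝 r, Real.exp u • x ∈ S := fun r hm => by
    have hw := hS.isEqn hm
    refine stay_of_tangent (A := S) (γ := fun r : ℝ => Real.exp r • x) (Z := fun q => q) hw.two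
      contDiffAt_id (v := gradient (eqn S (Real.exp r • x)) (Real.exp r • x)) ?_ hw.2.2 hm ?_ ?_
    · rw [← inner_grad]
      exact fun h0 => hw.2.1 (inner_self_eq_zero.1 h0)
    · filter_upwards [hw.eventually] with q hq hm
      have h1 := hq.abs_inner_eq hm q
      rw [h q hm, abs_zero] at h1
      rw [← inner_grad]
      refine inner_grad_of_orth hq.2.1 ?_
      rw [real_inner_comm]
      exact abs_eq_zero.1 h1.symm
    · exact Eventually.of_forall fun u => (Real.hasDerivAt_exp u).smul_const x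
  have h1 := isPreconnected_univ.subset_of_closure_inter_subset
    (u := {r : ℝ | ∀ᶠ u in 𝓝 r, Real.exp u • x ∈ S}) isOpen_setOfPred_eventually_nhds
    ⟨0, trivial, loc 0 (by simpa using hx)⟩ fun r hr => loc r (by
      by_contra hn
      have h2 := (γc.tendsto r).eventually (hS.1.isOpen_compl.mem_nhds hn)
      obtain ⟨u, h3, h4⟩ := ((mem_closure_iff_frequently.1 hr.1).and_eventually h2).exists
      exact h4 h3.self_of_nhds)
  have h2 : Real.exp (Real.log c) • x ∈ S := (h1 (mem_univ (Real.log c))).self_of_nhds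
  rwa [Real.exp_log hc] at h2

/-- a smooth cone is a plane -/
lemma plane_of (hS : IsSurf S) (hne : S.Nonempty) (h : ∀ x ∈ S, ⟪x, nu S x⟫ = 0) :
    ∃ e : E3, e ≠ 0 ∧ S = {x | ⟪x, e⟫ = 0} := by
  obtain ⟨x, hx⟩ := hne
  have h0 : Tendsto (fun σ : ℝ => σ) (𝓝[>] 0) (𝓝 0) := tendsto_id.mono_left nhdsWithin_le_nhds
  have t0 : ∀ y : E3, Tendsto (fun σ : ℝ => σ • y) (𝓝[>] 0) (𝓝 0) := fun y => by
    simpa using h0.smul_const y
  have z : (0 : E3) ∈ S := hS.1.mem_of_tendsto (t0 x)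
    (eventually_nhdsWithin_of_forall fun c hc => cone_of hS h hx hc)
  have hw := hS.isEqn z
  refine ⟨nu S 0, fun h1 => ?_, Subset.antisymm (fun y hy => ?_) fun a ha => ?_⟩
  · have := hS.norm_nu z
    rw [h1, norm_zero] at this
    exact zero_ne_one this
  · have d1 : HasDerivAt (fun σ : ℝ => σ • y) y 0 := by
      simpa using (hasDerivAt_id (0 : ℝ)).smul_const y
    have d2 := ((hw.1.differentiable (by simp) 0).hasFDerivAt.comp_hasDerivAt_of_eq 0 d1
      (by simp)).hasDerivWithinAt (s := Ioi 0)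
    have d3 : HasDerivWithinAt (eqn S 0 ∘ fun σ : ℝ => σ • y) 0 (Ioi 0) 0 := by
      refine (hasDerivWithinAt_const (0 : ℝ) (Ioi 0) (0 : ℝ)).congr_of_eventuallyEq ?_ ?_
      · filter_upwards [(t0 y).eventually hw.2.2, self_mem_nhdsWithin] with σ a1 a2
        exact a1.1 (cone_of hS h hy a2)
      · simpa using hw.zero z
    have d4 := (uniqueDiffWithinAt_Ioi (0 : ℝ)).eq_deriv _ d2 d3
    rw [← inner_grad] at d4
    change ⟪y, nuw _ _⟫ = 0
    rw [nuw, inner_smul_right, real_inner_comm, d4, mul_zero]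
  · obtain ⟨v, h1, h2⟩ := jet' hS z (a := a) (by rw [real_inner_comm]; exact ha)
    refine hS.1.mem_of_tendsto (tendsto_dir (a := a) h1) ?_
    filter_upwards [h2, self_mem_nhdsWithin] with σ a1 a2
    have a3 : 0 < σ := a2
    have := cone_of hS h a1 (inv_pos.2 a3)
    rwa [zero_add, inv_smul_smul₀ a3.ne'] at this

/-- the Gaussian areas of a plane are at most one -/
lemma gA_plane {e : E3} (he : e ≠ 0) (y : E3) : gA {x : E3 | ⟪x, e⟫ = 0} y 1 ≤ 1 := by
  set n : E3 := ‖e‖⁻¹ • e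
  have hn : ‖n‖ = 1 := norm_smul_inv_norm he
  have e1 : {x : E3 | ⟪x, e⟫ = 0} = {x : E3 | ⟪x, n⟫ = 0} := by
    ext x
    simp [n, inner_smul_right, he]
  have e2 : scaleSet 1 (pt n y) {x : E3 | ⟪x, n⟫ = 0} = {x : E3 | ⟪x, n⟫ = 0} := by
    ext x
    have := inner_pt_nrm hn y
    rw [real_inner_comm] at this
    simp [scaleSet, inner_add_left, this]
  have e3 := gA_scale one_pos (pt n y) {x : E3 | ⟪x, n⟫ = 0} (⟪n, y⟫ • n) 1
  rw [e2, inv_one, one_smul, div_one, pt_apply, sub_add_cancel] at e3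
  have hc : Continuous fun x : E3 => gk (1 ^ 2) (x - ⟪n, y⟫ • n) :=
    (continuous_gk _).comp (by fun_prop)
  have hm : MeasurableSet {x : E3 | ⟪x, n⟫ = 0} :=
    (isClosed_eq (by fun_prop) continuous_const).measurableSet
  rw [e1, ← e3, gA, integral_eq_lintegral_of_nonneg_ae
    (Eventually.of_forall fun x => gk_nonneg (by norm_num) _) hc.aestronglyMeasurable]
  refine ENNReal.toReal_le_of_le_ofReal zero_le_one ?_
  rw [ENNReal.ofReal_one, ← PI.lintegral_gk_plane hn (σ := 1 ^ 2) (by norm_num), area]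
  refine setLIntegral_mono' hm fun x hx => ENNReal.ofReal_le_ofReal (gk_anti (by norm_num) ?_)
  refine (sq_le_sq₀ (norm_nonneg _) (norm_nonneg _)).1 ?_
  have hx' : ⟪x, n⟫ = 0 := hx
  rw [norm_sub_sq_real, real_inner_smul_right, hx']
  nlinarith [sq_nonneg ‖⟪n, y⟫ • n‖]

lemma subset_of_area {N' : Set E3} (hN : IsSurf N) (hN' : IsClosed N') (h : area N = area N') :
    N ⊆ N' := fun x hx => by
  by_contra hn
  obtain ⟨ε, ε0, hε⟩ := Metric.mem_nhds_iff.1 (hN'.isOpen_compl.mem_nhds hn)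
  obtain ⟨r, hr, r0, rε⟩ := ((Chart.lower_proof N hN x hx).and (Ioo_mem_nhdsGT ε0)).exists
  rw [h, area, Measure.restrict_apply measurableSet_ball,
    eq_empty_of_forall_notMem (s := ball x r ∩ N')
      fun y hy => hε (ball_subset_ball rε.le hy.1) hy.2,
    measure_empty, nonpos_iff_eq_zero, ENNReal.ofReal_eq_zero] at hr
  exact absurd hr (not_le.2 (by positivity))

lemma ssFlow_one (S : Set E3) : ssFlow S (-1) = S := by
  rw [ssFlow, neg_neg, Real.sqrt_one, scaleSet_one_zero]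

end surf

variable {D G a b : ℝ} {M : ℝ → Set E3} {x₀ : E3} {S : Set E3}

lemma ev_in (hab : a < b) {s : ℝ} (hs : s < 0) :
    ∀ᶠ lam : ℝ in atTop, 0 < lam ∧ b + s / lam ^ 2 ∈ Ioo a b :=
  (ev_time tendsto_id hab s).mono fun _ hi => ⟨hi.1, hi.2 s le_rfl, tup_lt hi.1 hs⟩

/-- weak convergence of one time slice gives smooth convergence along every ultrafilter -/
theorem slim_ultra (hab : a < b) (hM : InC D G M (Ioo a b)) (hS : IsSurf S)
    (hc : ∀ φ : E3 → ℝ, Continuous φ → HasCompactSupport φ →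
      Tendsto (fun lam : ℝ => ∫ x, φ x ∂(area (scaleFlow lam x₀ b M (-1)))) atTop
        (𝓝 (∫ x, φ x ∂(area S)))) (U : Ultrafilter ℝ) (hU : ↑U ≤ (atTop : Filter ℝ)) :
    SLim U (fun lam => scaleFlow lam x₀ b M) (ssFlow S) (Iio 0) := by
  obtain ⟨S', h1, -, h2, -⟩ := conv_all D G M a b hab hM x₀ ℝ U (fun lam => lam) hU
  have m1 : (-1 : ℝ) < 0 := by norm_num
  have h3 := h2.slice_const (t := -1) m1
  rw [ssFlow_one] at h3
  have h4 : ∀ᶠ lam : ℝ in U, IsSurf (scaleFlow lam x₀ b M (-1)) :=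
    hU ((ev_in hab m1).mono fun lam hi => (hM.mcf.isSurf hi.2).scale hi.1.ne' x₀)
  have := Chart.locFin_proof S hS
  have := Chart.locFin_proof S' h1.1
  have h5 : area S' = area S := Measure.ext_of_integral_eq_on_compactlySupported fun f =>
    tendsto_nhds_unique (h3.tendsto_area h4 h1.1 f.continuous f.hasCompactSupport)
      ((hc f f.continuous f.hasCompactSupport).mono_left hU)
  rwa [(subset_of_area h1.1 hS.1 h5).antisymm (subset_of_area hS h1.1.1 h5.symm)] at h2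

/-- the curvature is bounded near `(x₀, b)` -/
def BddAt (M : ℝ → Set E3) (x₀ : E3) (b : ℝ) : Prop :=
  ∃ δ K : ℝ, 0 < δ ∧ ∀ t ∈ Ioo (b - δ) b, ∀ x ∈ M t, ‖x - x₀‖ < δ → a2 (M t) x ≤ K

/-- if the limit has Gaussian areas at most one, the point is regular -/
theorem bdd_of_le_one (hab : a < b) (hM : IsMCF M (Ioo a b))
    (hA : ∀ t ∈ Ioo a b, AreaRatio D (M t))
    (h : ∀ U : Ultrafilter ℝ, ↑U ≤ (atTop : Filter ℝ) →
      SLim U (fun lam => scaleFlow lam x₀ b M) (ssFlow S) (Iio 0))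
    (hp : ∀ s < 0, ∀ y, gA (ssFlow S s) y 1 ≤ 1) : BddAt M x₀ b := by
  obtain ⟨ε, r, C, hε, hr, hC, hW⟩ := TT.whiteS_of white D
  have hK : IsCompact (closedBall (0 : E3) 4 ×ˢ Icc (-5 : ℝ) (-1)) :=
    (isCompact_closedBall _ _).prod isCompact_Icc
  have key : ∀ᶠ lam : ℝ in atTop, ∀ q ∈ closedBall (0 : E3) 4 ×ˢ Icc (-5 : ℝ) (-1),
      gA (scaleFlow lam x₀ b M q.2) q.1 1 ≤ 1 + ε := by
    refine mem_iff_ultrafilter.2 fun U hU => ?_
    by_contra hn
    have h1 : ∀ᶠ lam : ℝ in U, ∃ q ∈ closedBall (0 : E3) 4 ×ˢ Icc (-5 : ℝ) (-1),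
        1 + ε < gA (scaleFlow lam x₀ b M q.2) q.1 1 := by
      filter_upwards [Ultrafilter.compl_mem_iff_notMem.2 hn] with lam hl
      simpa only [mem_compl_iff, mem_ofPred_eq, not_forall, not_le, exists_prop] using hl
    obtain ⟨q, hq⟩ := h1.choice
    obtain ⟨q₀, h2, h3⟩ := hK.ultrafilter_le_nhds (U.map q)
      (le_principal_iff.2 (hq.mono fun _ hi => hi.1))
    have h4 : Tendsto q U (𝓝 q₀) := h3
    have h5 : q₀.2 < 0 := by linarith [h2.2.2]
    have h6 := (h U hU).slice ((continuous_snd.tendsto q₀).comp h4) h5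
    have h7 : ∀ᶠ lam : ℝ in U, 0 < lam ∧ b + (q lam).2 / lam ^ 2 ∈ Ioo a b := by
      filter_upwards [hq, hU (ev_time tendsto_id hab (-5))] with lam a1 a2
      exact ⟨a2.1, a2.2 _ a1.1.2.1, tup_lt a2.1 (by linarith [a1.1.2.2])⟩
    have h8 := h6.tendsto_gA (D := D)
      (h7.mono fun lam hi => (hM.isSurf hi.2).scale hi.1.ne' x₀)
      (h7.mono fun lam hi => (hA _ hi.2).scale hi.1 x₀)
      ((continuous_fst.tendsto q₀).comp h4) tendsto_const_nhds one_pos
    have h9 := ge_of_tendsto h8 (hq.mono fun _ hi => hi.2.le)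
    linarith [hp _ h5 q₀.1]
  obtain ⟨lam, h1, h2, h3⟩ := (key.and (ev_time tendsto_id hab (-5))).exists
  have l0 : 0 < lam := h2
  have h3' : a < b + -5 / lam ^ 2 := h3 _ le_rfl
  have σ0 : 0 < lam⁻¹ := inv_pos.2 l0
  have e1 : -5 / lam ^ 2 = -5 * lam⁻¹ ^ 2 := by field_simp
  have e2 : lam⁻¹ ^ 2 * lam ^ 2 = 1 := by field_simp
  refine ⟨min lam⁻¹ (lam⁻¹ ^ 2), 40 * (C / lam⁻¹) ^ 2, by positivity, fun t ht x hx hxx => ?_⟩
  have t1 : b - lam⁻¹ ^ 2 < t := by linarith [ht.1, min_le_right lam⁻¹ (lam⁻¹ ^ 2)]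
  have t2 : 0 < lam⁻¹ ^ 2 := by positivity
  have t3 : 0 < lam ^ 2 := by positivity
  refine a2_le (hM.isSurf ⟨by linarith, ht.2⟩) hx (mul_pos hr σ0)
    (hW M _ hM hA x t lam⁻¹ σ0 (fun s hs => ⟨by linarith [hs.1], hs.2.trans_lt ht.2⟩)
      (fun y hy t' ht' => ?_) hx)
  have a1 := dens_scale l0 x₀ b M (lam • (y - x₀)) ((t' - b) * lam ^ 2) 1
  rw [Sc.up_dn l0.ne', Sc.tup_tdn l0.ne', one_div] at a1
  rw [← a1, dens]
  refine h1 (lam • (y - x₀), (t' - b) * lam ^ 2 - 1 ^ 2) ⟨?_, ?_, ?_⟩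
  · rw [mem_closedBall_zero_iff, norm_smul, Real.norm_eq_abs, abs_of_pos l0]
    have b1 := mem_ball_iff_norm.1 hy
    have b2 : ‖y - x₀‖ ≤ ‖y - x‖ + ‖x - x₀‖ := norm_sub_le_norm_sub_add_norm_sub y x x₀
    have b3 : ‖y - x₀‖ ≤ 4 * lam⁻¹ := by linarith [min_le_left lam⁻¹ (lam⁻¹ ^ 2)]
    calc lam * ‖y - x₀‖ ≤ lam * (4 * lam⁻¹) := by gcongr
      _ = 4 := by field_simp
  · have b1 : -4 * lam⁻¹ ^ 2 ≤ t' - b := by linarith [ht'.1]
    have b2 := mul_le_mul_of_nonneg_right b1 t3.le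
    change -5 ≤ (t' - b) * lam ^ 2 - 1 ^ 2
    nlinarith
  · have b1 : t' - b ≤ 0 := by linarith [ht'.2, ht.2]
    have b2 := mul_nonpos_of_nonpos_of_nonneg b1 t3.le
    change (t' - b) * lam ^ 2 - 1 ^ 2 ≤ -1
    linarith

/-- points of the limit are limits of points of the flow -/
lemma exists_pts (h : SLimS atTop (fun lam : ℝ => scaleFlow lam x₀ b M (-1)) S) {x : E3}
    (hx : x ∈ S) : ∃ y : ℝ → E3, Tendsto y atTop (𝓝 x) ∧
      (∀ᶠ lam in atTop, y lam ∈ scaleFlow lam x₀ b M (-1)) ∧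
      Tendsto (fun lam : ℝ => x₀ + lam⁻¹ • y lam) atTop (𝓝 x₀) := by
  obtain ⟨y, h1, h2⟩ := h.exists_seq hx
  exact ⟨y, h1, h2, by simpa using (tendsto_inv_atTop_zero.smul h1).const_add x₀⟩

/-- at a regular point the limit is tangent to the position vector -/
theorem orth_of_bdd (hS : IsShr S)
    (h : SLimS atTop (fun lam : ℝ => scaleFlow lam x₀ b M (-1)) S) (hb : BddAt M x₀ b) :
    ∀ x ∈ S, ⟪x, nu S x⟫ = 0 := fun x hx => by
  obtain ⟨δ, K, hδ, hb⟩ := hb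
  obtain ⟨y, h1, h2, h3⟩ := exists_pts h hx
  have h4 : Tendsto (fun lam : ℝ => K / lam ^ 2) atTop (𝓝 0) :=
    tendsto_const_nhds.div_atTop (tendsto_pow_atTop two_ne_zero)
  have h5 := le_of_tendsto_of_tendsto (h.tendsto_a2 hx h1 h2) h4 (by
    filter_upwards [h2, ev_in (sub_lt_self b hδ) (s := -1) (by norm_num),
      h3.eventually (ball_mem_nhds x₀ hδ)] with lam a1 a2 a3
    rw [scaleFlow_apply] at a1 ⊢
    rw [a2_scale a2.1 a1]
    exact div_le_div_of_nonneg_right (hb _ a2.2 _ a1 (mem_ball_iff_norm.1 a3)) (sq_nonneg _))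
  have h6 : Hv S x = 0 := by
    have := hS.1.norm_Hv_sq_le hx
    exact norm_eq_zero.1 (pow_eq_zero_iff two_ne_zero |>.1
      (le_antisymm (by linarith) (sq_nonneg _)))
  have h7 := hS.2 x hx
  have h8 : nu S x ≠ 0 := fun h0 => by
    have := hS.1.norm_nu hx
    rw [h0, norm_zero] at this
    exact zero_ne_one this
  rw [relV, h6, zero_add, sub_zero, smul_eq_zero_iff_left h8] at h7
  linarith

end Vale.Agent.N218
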