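import Vale.Agent.N218.RSt
import Mathlib.Analysis.Calculus.MeanValue
import Mathlib.Analysis.Calculus.ContDiff.Operations
import Mathlib.Analysis.SpecialFunctions.Pow.Asymptotics
import Mathlib.Analysis.InnerProductSpace.Projection.FiniteDimensional

/-! Interpolation: from a rate for the Hausdorff distance to a rate for all derivatives. -/

open Set Filter Topology Metric
open scoped ContDiff RealInnerProductSpace

namespace Vale.Agent.N218.Rate

open Vale.Agent.P218FS.St Vale.Agent.P218S.St Vale.Agent.N218.RSt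

lemma concave_exp {B : ℕ → ℝ → Prop} {α : ℝ} (hα : 0 < α) (h0 : B 0 α) (hz : ∀ k, B k 0)
    (hmono : ∀ k β β', β' ≤ β → B k β → B k β')
    (hstep : ∀ k β β', β' < β → B k β → B (k + 2) β' → B (k + 1) ((β + β') / 2)) (k : ℕ) :
    B k (α / 2) := by
  set b : ℕ → ℝ := fun k => sSup {β | β ≤ α ∧ B k β} with hb
  have h1 : ∀ k β, β ≤ α → B k β → β ≤ b k := fun k β a1 a2 =>
    le_csSup ⟨α, fun _ h => h.1⟩ ⟨a1, a2⟩
  have h2 : ∀ k β, β < b k → B k β := fun k β a1 => by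
    obtain ⟨β', a2, a3⟩ := exists_lt_of_lt_csSup (s := {β | β ≤ α ∧ B k β}) ⟨0, hα.le, hz k⟩ a1
    exact hmono k _ _ a3.le a2.2
  have h3 : ∀ k, b k ≤ α := fun k => csSup_le ⟨0, hα.le, hz k⟩ fun _ h => h.1
  have h4 : ∀ k, b (k + 1) < b k → b (k + 2) ≤ 2 * b (k + 1) - b k := fun k a1 => by
    by_contra a2
    push Not at a2
    have a3 : 2 * b (k + 1) - b k < min (b (k + 2)) (b (k + 1)) := lt_min a2 (by linarith)
    have a4 := min_le_left (b (k + 2)) (b (k + 1))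
    have a5 := min_le_right (b (k + 2)) (b (k + 1))
    set m := min (b (k + 2)) (b (k + 1))
    have a6 := h1 _ _ (by linarith [h3 k]) (hstep k (b k - (m - (2 * b (k + 1) - b k)) / 3)
      (m - (m - (2 * b (k + 1) - b k)) / 3) (by linarith) (h2 _ _ (by linarith))
      (h2 _ _ (by linarith)))
    linarith
  have h5 : ∀ k, b k ≤ b (k + 1) := fun k => by
    by_contra a1
    push Not at a1
    have a2 : ∀ j : ℕ, b k - b (k + 1) ≤ b (k + j) - b (k + j + 1) ∧
        b (k + j) ≤ b k - j * (b k - b (k + 1)) := by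
      intro j
      induction j with
      | zero => simp
      | succ j ih =>
        have a3 := h4 (k + j) (by linarith [ih.1])
        rw [← add_assoc]
        push_cast
        exact ⟨by linarith [ih.1], by linarith [ih.1, ih.2]⟩
    obtain ⟨j, hj⟩ := exists_nat_gt (b k / (b k - b (k + 1)))
    rw [div_lt_iff₀ (by linarith)] at hj
    linarith [(a2 j).2, h1 (k + j) 0 hα.le (hz _)]
  have h6 : b 0 ≤ b k := monotone_nat_of_le_succ h5 k.zero_le
  exact h2 _ _ (by linarith [h1 0 α le_rfl h0])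

variable {F : Type} [NormedAddCommGroup F] [NormedSpace ℝ F]

lemma interp {w : F → ℝ} {q : F} {h A M : ℝ} (h0 : 0 < h) (k : ℕ)
    (hw : ∀ z ∈ closedBall q h, ContDiffAt ℝ ∞ w z)
    (hA : ∀ z ∈ closedBall q h, ‖iteratedFDeriv ℝ k w z‖ ≤ A)
    (hM : ∀ z ∈ closedBall q h, ‖iteratedFDeriv ℝ (k + 2) w z‖ ≤ M) :
    ‖iteratedFDeriv ℝ (k + 1) w q‖ ≤ 2 * A / h + M * h := by
  have hq : q ∈ closedBall q h := mem_closedBall_self h0.le
  have hA0 : 0 ≤ A := (norm_nonneg _).trans (hA q hq)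
  have hM0 : 0 ≤ M := (norm_nonneg _).trans (hM q hq)
  have hd : ∀ (j : ℕ), ∀ z ∈ closedBall q h, DifferentiableAt ℝ (iteratedFDeriv ℝ j w) z :=
    fun j z hz => (hw z hz).differentiableAt_iteratedFDeriv (by exact_mod_cast ENat.natCast_lt_top j)
  have h1 : ∀ z ∈ closedBall q h,
      ‖fderiv ℝ (iteratedFDeriv ℝ k w) z - fderiv ℝ (iteratedFDeriv ℝ k w) q‖ ≤ M * h := by
    intro z hz
    rw [fderiv_iteratedFDeriv, Function.comp_apply, Function.comp_apply,
      ← LinearIsometryEquiv.map_sub, LinearIsometryEquiv.norm_map]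
    refine ((convex_closedBall q h).norm_image_sub_le_of_norm_fderiv_le (hd (k + 1))
      (fun y hy => norm_fderiv_iteratedFDeriv.trans_le (hM y hy)) hq hz).trans ?_
    exact mul_le_mul_of_nonneg_left (mem_closedBall_iff_norm.1 hz) hM0
  rw [← norm_fderiv_iteratedFDeriv]
  refine ContinuousLinearMap.opNorm_le_of_unit_norm (by positivity) fun v hv => ?_
  have h2 : ‖h • v‖ = h := by rw [norm_smul, hv, mul_one, Real.norm_of_nonneg h0.le]
  have h3 : q + h • v ∈ closedBall q h := by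
    rw [mem_closedBall_iff_norm, add_sub_cancel_left, h2]
  have h4 := (convex_closedBall q h).norm_image_sub_le_of_norm_fderiv_le' (hd k) h1 hq h3
  rw [add_sub_cancel_left, h2, map_smul] at h4
  have h5 := norm_sub_le (iteratedFDeriv ℝ k w (q + h • v) - iteratedFDeriv ℝ k w q)
    (iteratedFDeriv ℝ k w (q + h • v) - iteratedFDeriv ℝ k w q -
      h • fderiv ℝ (iteratedFDeriv ℝ k w) q v)
  rw [sub_sub_cancel, norm_smul, Real.norm_of_nonneg h0.le] at h5
  have h6 := norm_sub_le (iteratedFDeriv ℝ k w (q + h • v)) (iteratedFDeriv ℝ k w q)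
  rw [div_add' _ _ _ h0.ne', le_div_iff₀' h0]
  linarith [hA q hq, hA _ h3]

/-- a rate for the functions and bounds for the derivatives give a rate for the derivatives -/
lemma all_orders {w : ℝ → F → ℝ} {c : F} {r α : ℝ} (hα : 0 < α)
    (hw : ∀ᶠ lam in atTop, ∀ z ∈ ball c r, ContDiffAt ℝ ∞ (w lam) z)
    (hz : ∀ k : ℕ, ∀ᶠ lam in atTop, ∀ z ∈ ball c r, ‖iteratedFDeriv ℝ k (w lam) z‖ ≤ 1)
    (h0 : ∀ ρ < r, ∃ C : ℝ, ∀ᶠ lam in atTop, ∀ z ∈ ball c ρ, |w lam z| ≤ C * Real.log lam ^ (-α))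
    (k : ℕ) : ∀ ρ < r, ∃ C : ℝ, ∀ᶠ lam in atTop, ∀ z ∈ ball c ρ,
      ‖iteratedFDeriv ℝ k (w lam) z‖ ≤ C * Real.log lam ^ (-(α / 2)) := by
  have hl : ∀ᶠ lam in atTop, 1 ≤ Real.log lam := Real.tendsto_log_atTop.eventually_ge_atTop 1
  refine concave_exp (B := fun k β => ∀ ρ < r, ∃ C : ℝ, ∀ᶠ lam in atTop, ∀ z ∈ ball c ρ,
    ‖iteratedFDeriv ℝ k (w lam) z‖ ≤ C * Real.log lam ^ (-β)) hα ?_ (fun k ρ hρ => ⟨1, ?_⟩)
    (fun k β β' hβ h ρ hρ => ?_) (fun k β β' hβ h h' ρ hρ => ?_) k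
  · simpa only [norm_iteratedFDeriv_zero, Real.norm_eq_abs] using h0
  · filter_upwards [hz k] with lam h z hz
    simpa using h z (ball_subset_ball hρ.le hz)
  · obtain ⟨C, h⟩ := h ρ hρ
    refine ⟨|C|, ?_⟩
    filter_upwards [h, hl] with lam a1 a2 z hz
    exact (a1 z hz).trans (mul_le_mul (le_abs_self C)
      (Real.rpow_le_rpow_of_exponent_le a2 (neg_le_neg hβ)) (by positivity) (abs_nonneg C))
  · obtain ⟨C, h⟩ := h ((ρ + r) / 2) (by linarith)
    obtain ⟨C', h'⟩ := h' ((ρ + r) / 2) (by linarith)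
    have h1 := (tendsto_rpow_neg_atTop (show 0 < (β - β') / 2 by linarith)).comp
      Real.tendsto_log_atTop
    refine ⟨2 * C + C', ?_⟩
    filter_upwards [h, h', hl, hw, h1.eventually (ge_mem_nhds (show 0 < (r - ρ) / 2 by linarith))]
      with lam a1 a2 a3 a4 a5 z hz
    have a6 : 0 < Real.log lam := by linarith
    have a7 : closedBall z (Real.log lam ^ (-((β - β') / 2))) ⊆ ball c ((ρ + r) / 2) :=
      closedBall_subset_ball' (by
        have := mem_ball.1 hz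
        simp only [Function.comp_apply] at a5
        linarith)
    refine (interp (Real.rpow_pos_of_pos a6 _) k
      (fun y hy => a4 y (ball_subset_ball (by linarith) (a7 hy))) (fun y hy => a1 y (a7 hy))
      (fun y hy => a2 y (a7 hy))).trans (le_of_eq ?_)
    rw [mul_div_assoc, mul_div_assoc, ← Real.rpow_sub a6, mul_assoc C', ← Real.rpow_add a6,
      show -β - -((β - β') / 2) = -((β + β') / 2) by ring,
      show -β' + -((β - β') / 2) = -((β + β') / 2) by ring]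
    ring

lemma frame_dec {J : R2 →ₗᵢ[ℝ] R3} {e : R3} (h : IsFrame J e) (v : R3) :
    ∃ (ξ : R2) (z : ℝ), v = J ξ + z • e ∧ ‖ξ‖ ≤ ‖v‖ ∧ |z| ≤ ‖v‖ := by
  have h0 : e ≠ 0 := by
    rw [← norm_ne_zero_iff, h.1]
    exact one_ne_zero
  have h1 := Submodule.finrank_add_finrank_orthogonal (ℝ ∙ e)
  rw [finrank_span_singleton h0, finrank_euclideanSpace_fin] at h1
  have h2 : LinearMap.range J.toLinearMap = (ℝ ∙ e)ᗮ := by
    refine Submodule.eq_of_le_of_finrank_eq ?_ ?_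
    · rintro _ ⟨ξ, rfl⟩
      exact Submodule.mem_orthogonal_singleton_iff_inner_right.2 (h.2 ξ)
    · rw [LinearMap.finrank_range_of_inj J.injective, finrank_euclideanSpace_fin]
      omega
  have h3 : v - ⟪e, v⟫ • e ∈ LinearMap.range J.toLinearMap := by
    rw [h2, Submodule.mem_orthogonal_singleton_iff_inner_right, inner_sub_right,
      real_inner_smul_right, real_inner_self_eq_norm_sq, h.1]
    ring
  obtain ⟨ξ, hξ⟩ := h3
  have h4 : v = J ξ + ⟪e, v⟫ • e := eq_add_of_sub_eq hξ.symm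
  have h5 : ‖v‖ ^ 2 = ‖ξ‖ ^ 2 + ⟪e, v⟫ ^ 2 := by
    conv_lhs => rw [h4]
    rw [norm_add_sq_real, real_inner_smul_right, real_inner_comm e (J ξ), h.2, J.norm_map, norm_smul, h.1,
      Real.norm_eq_abs, mul_one, sq_abs]
    ring
  refine ⟨ξ, _, h4, ?_, ?_⟩
  · exact abs_le_of_sq_le_sq' (by nlinarith [sq_nonneg ⟪e, v⟫]) (norm_nonneg _) |>.2
  · exact abs_le_of_sq_le_sq (by nlinarith [sq_nonneg ‖ξ‖]) (norm_nonneg _)

/-- **From the Hausdorff distance to all derivatives.** -/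
theorem smoothRate {M : ℝ → ℝ → Set R3} {L : ℝ → Set R3} {α : ℝ} (hα : 0 < α)
    (h : SmoothTendsto M L)
    (hH : ∀ R a b : ℝ, b < 0 → ∃ C : ℝ, ∀ᶠ lam in atTop, ∀ τ ∈ Icc a b, ∀ y ∈ M lam τ, ‖y‖ ≤ R →
      ∃ x ∈ L τ, ‖x - y‖ ≤ C * Real.log lam ^ (-α)) : SmoothRate (α / 2) M L := by
  refine fun s hs x => ⟨fun hx => ?_, (h s hs x).2⟩
  obtain ⟨J, e, r, h, u, u₀, hF, r0, r1, g0, g1, hc⟩ := (h s hs x).1 hx
  have hsub : ball ((0 : R2), s) (r / 2) ⊆ ball (0, s) r := ball_subset_ball (by linarith)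
  have c0 : ∀ z ∈ ball ((0 : R2), s) r, ContDiffAt ℝ ∞ u₀ z := fun z hz =>
    g0.1.contDiffAt (isOpen_ball.mem_nhds hz)
  have c1 : ∀ᶠ lam in atTop, ∀ z ∈ ball ((0 : R2), s) r, ContDiffAt ℝ ∞ (u lam) z :=
    g1.mono fun lam a z hz => a.1.contDiffAt (isOpen_ball.mem_nhds hz)
  have c2 : ∀ᶠ lam in atTop, ∀ k : ℕ, ∀ z ∈ ball ((0 : R2), s) r,
      iteratedFDeriv ℝ k (u lam - u₀) z = iteratedFDeriv ℝ k (u lam) z - iteratedFDeriv ℝ k u₀ z :=
    c1.mono fun lam a k z hz => iteratedFDeriv_sub_apply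
      ((a z hz).of_le (by exact_mod_cast le_top)) ((c0 z hz).of_le (by exact_mod_cast le_top))
  have c3 : ∀ (k : ℕ) (η : ℝ), 0 < η → ∀ᶠ lam in atTop, ∀ z ∈ ball ((0 : R2), s) r,
      ‖iteratedFDeriv ℝ k (u lam - u₀) z‖ ≤ η := fun k η hη => by
    filter_upwards [c2, Metric.tendstoUniformlyOn_iff.1 (hc k) η hη] with lam a1 a2 z hz
    rw [a1 k z hz, ← dist_eq_norm, dist_comm]
    exact (a2 z hz).le
  have key := all_orders (w := fun lam => u lam - u₀) (c := (0, s)) (r := r) hα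
    (c1.mono fun lam a z hz => (a z hz).sub (c0 z hz)) (fun k => c3 k 1 one_pos) ?_
  · refine ⟨J, e, r / 2, h, u, u₀, hF, by linarith, by linarith,
      ⟨g0.1.mono hsub, fun q hq => g0.2 q (hsub hq)⟩,
      g1.mono fun lam a => ⟨a.1.mono hsub, fun q hq => a.2 q (hsub hq)⟩, fun k => ?_⟩
    obtain ⟨C, hC⟩ := key k (r / 2) (by linarith)
    refine ⟨C, ?_⟩
    filter_upwards [hC, c2] with lam a1 a2 q hq
    rw [← a2 k q (hsub hq)]
    exact a1 q hq
  intro ρ hρ
  set ρ' := (max ρ 0 + r) / 2 with hρ'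
  have p1 : max ρ 0 < r := max_lt hρ r0
  have p2 := le_max_left ρ 0
  have p3 := le_max_right ρ 0
  have p4 : closedBall ((0 : R2), s) ρ' ⊆ ball (0, s) r := closedBall_subset_ball (by linarith)
  have hK := isCompact_closedBall ((0 : R2), s) ρ'
  obtain ⟨q₀, q1, q2⟩ := hK.exists_isMaxOn ⟨_, mem_closedBall_self (by linarith)⟩
    (g0.1.continuousOn.mono p4).abs
  have q3 := (g0.2 q₀ (p4 q1)).1
  obtain ⟨Λ, hΛ⟩ := hK.exists_bound_of_continuousOn (f := fderiv ℝ u₀) fun z hz =>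
    ((c0 z (p4 hz)).continuousAt_fderiv (by simp)).continuousWithinAt
  obtain ⟨C, hC⟩ := hH (‖x‖ + r + h) (s - ρ') (s + ρ') (by linarith)
  have t0 := ((tendsto_rpow_neg_atTop hα).comp Real.tendsto_log_atTop).const_mul C
  rw [mul_zero] at t0
  refine ⟨(1 + |Λ|) * C, ?_⟩
  filter_upwards [hC, g1, c3 0 ((h - |u₀ q₀|) / 3) (by linarith), t0.eventually (ge_mem_nhds
    (lt_min (show 0 < (h - |u₀ q₀|) / 3 by linarith) (show 0 < ρ' - ρ by linarith)))]
    with lam a1 a2 a3 a4 q hq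
  simp only [Function.comp_apply, le_min_iff] at a4
  have b1 : q ∈ closedBall ((0 : R2), s) ρ' := closedBall_subset_closedBall (by linarith)
    (ball_subset_closedBall hq)
  have b2 := mem_ball.1 hq
  rw [Prod.dist_eq, max_lt_iff, dist_zero_right, Real.dist_eq, abs_lt] at b2
  obtain ⟨b3, b4⟩ := a2.2 q (p4 b1)
  obtain ⟨p, hp, b5⟩ := a1 q.2 ⟨by linarith [b2.2.1], by linarith [b2.2.2]⟩ _
    ((b4 _ b3).2 rfl) (by
      refine (norm_add₃_le).trans ?_
      rw [J.norm_map, norm_smul, hF.1, Real.norm_eq_abs]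
      linarith [b2.1])
  obtain ⟨ξ, z, b6, b7, b8⟩ := frame_dec hF (p - (x + J q.1 + u lam q • e))
  have b9 : (q.1 + ξ, q.2) ∈ closedBall ((0 : R2), s) ρ' := by
    rw [mem_closedBall, Prod.dist_eq, max_le_iff, dist_zero_right, Real.dist_eq, abs_le]
    exact ⟨by linarith [norm_add_le q.1 ξ, b2.1], by linarith [b2.2.1], by linarith [b2.2.2]⟩
  have b10 := a3 q (p4 b1)
  rw [norm_iteratedFDeriv_zero, Pi.sub_apply, Real.norm_eq_abs] at b10
  have b11 : |u₀ q| ≤ |u₀ q₀| := q2 b1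
  have b12 : u lam q + z = u₀ (q.1 + ξ, q.2) := by
    refine ((g0.2 _ (p4 b9)).2 _ ?_).1 ?_
    · linarith [abs_add_le (u lam q) z, abs_sub_abs_le_abs_sub (u lam q) (u₀ q)]
    · rw [map_add, add_smul, show x + (J q.1 + J ξ) + (u lam q • e + z • e) =
        x + J q.1 + u lam q • e + (J ξ + z • e) by abel, ← b6, add_sub_cancel]
      exact hp
  have b13 := (convex_closedBall _ _).norm_image_sub_le_of_norm_fderiv_le
    (fun y hy => (c0 y (p4 hy)).differentiableAt (by simp))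
    (fun y hy => (hΛ y hy).trans (le_abs_self Λ)) b1 b9
  have b14 : ‖(q.1 + ξ, q.2) - q‖ = ‖ξ‖ := by simp [Prod.norm_def]
  rw [b14, ← b12, Real.norm_eq_abs] at b13
  have b15 := mul_le_mul_of_nonneg_left (b7.trans b5) (abs_nonneg Λ)
  have b16 := abs_sub (u lam q + z - u₀ q) z
  rw [show u lam q + z - u₀ q - z = u lam q - u₀ q by ring] at b16
  rw [Pi.sub_apply, mul_assoc, add_mul, one_mul]
  linarith

end Vale.Agent.N218.Rate
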