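import Vale.Agent.N218.Geo
import Vale.Agent.N218.Curv
import Vale.Agent.P218F.LgbFin

/-! The tangent flow of a smooth flow up to the first singular time, from the core. -/

open MeasureTheory Set Filter Topology Metric
open scoped Manifold ContDiff RealInnerProductSpace

namespace Vale.Agent.N218

open Vale.Agent.P218FT Vale.Agent.P218FT.Conv Vale.Agent.P218FS
open Vale.Agent.P218S.St (SmoothTendsto rescaledSurface shrinkingSurface)

lemma image_eq {lam : ℝ} (hl : lam ≠ 0) (x₀ : E3) (A : Set E3) :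
    (fun x => lam • (x - x₀)) '' A = scaleSet lam x₀ A := by
  ext y
  refine ⟨?_, fun hy => ⟨_, hy, Sc.dn_up hl x₀ y⟩⟩
  rintro ⟨x, hx, rfl⟩
  exact (dn_mem_scaleSet hl).2 hx

lemma shr_eq (S : Set E3) {s : ℝ} (hs : s < 0) : shrinkingSurface S s = ssFlow S s := by
  have := image_eq (Real.sqrt_pos.2 (neg_pos.2 hs)).ne' 0 S
  simp only [sub_zero] at this
  exact this

/-- locally smooth convergence, in the words of the statement -/
theorem smoothTendsto {M M' : ℝ → ℝ → Set E3} {S : Set E3}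
    (hu : ∀ U : Ultrafilter ℝ, ↑U ≤ (atTop : Filter ℝ) → SLim U M (ssFlow S) (Iio 0))
    (e : ∀ᶠ lam : ℝ in atTop, M' lam = M lam) : SmoothTendsto M' (shrinkingSurface S) := by
  intro t ht' x
  rw [shr_eq S ht']
  refine ⟨fun hx => ?_, fun hx => ?_⟩
  · obtain ⟨e', J, pr, δ, ρ, f, f₀, F, d0, -, d1, c1, -, c2, c3⟩ :=
      P218S7.graph_of_ultra isOpen_Iio hu ht' hx
    have d2 : δ ≤ -t := by
      by_contra hh
      have := d1 (0, 0) (by
        rw [← ball_prod_same]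
        exact ⟨mem_ball_self d0, by
          rw [mem_ball_iff_norm, zero_sub, norm_neg, Real.norm_eq_abs, abs_of_neg ht']
          exact not_le.1 hh⟩)
      exact lt_irrefl (0 : ℝ) this
    refine ⟨⟨J.toLinearMap, F.norm_J⟩, e', δ, ρ, f, f₀, ⟨F.unit, F.orth⟩, d0, d2,
      ⟨c1.smooth_lim, fun q hq => ?_⟩, ?_, c1.conv⟩
    · rw [shr_eq S (d1 q hq)]
      exact ⟨(c2 q hq).1, fun z hz => (c2 q hq).2 z hz.le⟩
    · filter_upwards [c1.smooth, c3, e] with lam a1 a2 a3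
      rw [a3]
      exact ⟨a1, fun q hq => ⟨(a2 q hq).1, fun z hz => (a2 q hq).2 z hz.le⟩⟩
  · obtain ⟨W, hW, h1⟩ := P218S7.out_of_ultra isOpen_Iio hu ht' hx
    refine ⟨Prod.swap ⁻¹' W, continuous_swap.continuousAt.preimage_mem_nhds hW, ?_⟩
    filter_upwards [h1, e] with lam a1 a3 p hp
    rw [a3]
    exact a1 _ hp

lemma ssFlow_plane (e : E3) {s : ℝ} (hs : s < 0) :
    ssFlow {x : E3 | ⟪x, e⟫ = 0} s = {x : E3 | ⟪x, e⟫ = 0} := by
  have h0 : √(-s) ≠ 0 := (Real.sqrt_pos.2 (neg_pos.2 hs)).ne'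
  ext x
  simp [ssFlow, scaleSet, inner_smul_left, h0]

variable {N : Type*} [TopologicalSpace N] [ChartedSpace R2 N] {F : ℝ → N → R3} {T : ℝ}
  [IsManifold (𝓡 2) ∞ N] [CompactSpace N] [T2Space N]

/-- singular points are the points near which the curvature is not bounded -/
theorem singular_iff (h : IsSmoothMCF F T) (hT : 0 < T) (x₀ : E3) :
    St.IsSingular F x₀ T ↔ ¬ BddAt (fun t => range (F t)) x₀ T := by
  constructor
  · rintro ⟨t, p, h1, h2, h3, h4⟩ ⟨δ, K, hδ, hb⟩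
    obtain ⟨i, a1, a2, a3, a4⟩ := ((h2.eventually (lt_mem_nhds (sub_lt_self T hδ))).and
      ((h2.eventually (lt_mem_nhds hT)).and ((h3.eventually (ball_mem_nhds x₀ hδ)).and
        (h4.eventually_gt_atTop K)))).exists
    rw [normSqA_eq h ⟨a2, h1 i⟩] at a4
    exact absurd (hb _ ⟨a1, h1 i⟩ _ ⟨p i, rfl⟩ (mem_ball_iff_norm.1 a3)) (not_le.2 a4)
  · intro hn
    have h1 : ∀ n : ℕ, ∃ t ∈ Ioo (T - min T (1 / ((n : ℝ) + 1))) T, ∃ p,
        ‖F t p - x₀‖ < min T (1 / ((n : ℝ) + 1)) ∧ (n : ℝ) < a2 (range (F t)) (F t p) := by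
      intro n
      by_contra h2
      push Not at h2
      refine hn ⟨min T (1 / ((n : ℝ) + 1)), n, by positivity, ?_⟩
      rintro t ht _ ⟨p, rfl⟩ hp
      exact h2 t ht p hp
    choose t ht p hp hq using h1
    refine ⟨t, p, fun n => (ht n).2, ?_, ?_, ?_⟩
    · refine tendsto_of_tendsto_of_tendsto_of_le_of_le
        (g := fun n : ℕ => T - 1 / ((n : ℝ) + 1)) (h := fun _ => T) ?_ tendsto_const_nhds
        (fun n => ?_) fun n => (ht n).2.le
      · simpa using tendsto_one_div_add_atTop_nhds_zero_nat.const_sub T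
      · linarith [(ht n).1, min_le_right T (1 / ((n : ℝ) + 1))]
    · rw [tendsto_iff_norm_sub_tendsto_zero]
      exact squeeze_zero (fun n => norm_nonneg _) (fun n => (hp n).le.trans (min_le_right _ _))
        tendsto_one_div_add_atTop_nhds_zero_nat
    · refine tendsto_atTop_mono (fun n => ?_) tendsto_natCast_atTop_atTop
      rw [normSqA_eq h ⟨by linarith [(ht n).1, min_le_left T (1 / ((n : ℝ) + 1))], (ht n).2⟩]
      exact (hq n).le

theorem main [ConnectedSpace N] (hC : CoreStmt) (h : IsSmoothMCF F T) {μ : ℝ → Measure R3}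
    (hμ : ∀ t ∈ Ico 0 T, μ t = area (range (F t))) (x₀ : R3) {t₀ : ℝ} (ht₀ : 0 < t₀)
    (hT : t₀ ≤ T) :
    ∃ S : Set R3, IsShrinker S ∧
      (∀ s < 0, WeakTendsto atTop (fun lam : ℝ => rescaled μ x₀ t₀ lam s) (shrinkerFlow S s)) ∧
      IsTangentFlow μ x₀ t₀ (shrinkerFlow S) ∧
      (∀ ν, IsTangentFlow μ x₀ t₀ ν → ∀ s < 0, ν s = shrinkerFlow S s) ∧
      SmoothTendsto (rescaledSurface F x₀ t₀) (shrinkingSurface S) ∧
      (S.Nonempty ↔ IsReached F x₀ t₀) ∧
      (St.IsSingular F x₀ t₀ ↔ S.Nonempty ∧ ¬ St.IsPlane S) := by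
  have hcl := (h.mono hT).isClosedFlow
  have ha : t₀ / 2 ∈ Ioo 0 t₀ := ⟨by linarith, by linarith⟩
  obtain ⟨D, hD'⟩ := ratio _ _ _ hcl _ ha
  obtain ⟨G, hG'⟩ := P218F.Lgb.lgbFlow_proof _ _ _ hcl _ ha
  have hM : IsMCF (fun t => range (F t)) (Ioo (t₀ / 2) t₀) :=
    isMCF_mono hcl.mcf isOpen_Ioo (Ioo_subset_Ioo_left ha.1.le)
  have hcl' : IsClosedFlow (fun t => range (F t)) (t₀ / 2) t₀ :=
    ⟨hM, hcl.bdd.imp fun R hR t ht => hR t (Ioo_subset_Ioo_left ha.1.le ht),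
      fun t ht => hcl.conn t (Ioo_subset_Ioo_left ha.1.le ht)⟩
  obtain ⟨S, hS, hsh, hconv⟩ := hC D G _ _ _ ha.2 hcl' ⟨hM, hD', hG'⟩ x₀
  have hw : ∀ s < 0, WeakTendsto atTop (fun lam : ℝ => rescaled μ x₀ t₀ lam s)
      (shrinkerFlow S s) := by
    intro s hs φ hφ hφc
    rw [shrinkerFlow_eq S hs]
    refine (hconv s hs φ hφ hφc).congr' ?_
    filter_upwards [ev_in ht₀ hs] with lam hl
    rw [rescaled, hμ _ ⟨hl.2.1.le, hl.2.2.trans_le hT⟩, scaleFlow, area_scale hl.1]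
  have hlf : ∀ s < 0, IsLocallyFiniteMeasure (shrinkerFlow S s) := by
    intro s hs
    rw [shrinkerFlow_eq S hs]
    exact Chart.locFin_proof _ (hS.scale (Real.sqrt_pos.2 (neg_pos.2 hs)).ne' 0)
  have m1 : (-1 : ℝ) < 0 := by norm_num
  have hc1 := hconv (-1) m1
  rw [scaleSet_one] at hc1
  have hu := slim_ultra ha.2 ⟨hM, hD', hG'⟩ hS hc1
  have hs1 := (P218S7.slim_of_ultra isOpen_Iio hu).slice_const (t := -1) m1
  rw [ssFlow_one] at hs1
  refine ⟨S, isShrinker_of hS hsh, hw, ⟨hlf, fun i => (i : ℝ), tendsto_natCast_atTop_atTop,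
    fun s hs φ hφ hφc => (hw s hs φ hφ hφc).comp tendsto_natCast_atTop_atTop⟩, ?_,
    smoothTendsto hu ?_, ⟨?_, ?_⟩, ?_⟩
  · rintro ν ⟨hν, lam, hlam, hc⟩ s hs
    have := hν s hs
    have := hlf s hs
    exact (hc s hs).unique fun φ hφ hφc => (hw s hs φ hφ hφc).comp hlam
  · filter_upwards [eventually_gt_atTop 0] with lam hl
    exact funext fun s => image_eq hl.ne' x₀ _
  · rintro ⟨x, hx⟩
    obtain ⟨y, -, h2, h3⟩ := exists_pts hs1 hx
    obtain ⟨L, hL⟩ := eventually_atTop.1 (h2.and (eventually_gt_atTop 0))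
    have h4 : Tendsto (fun n : ℕ => L + n) atTop atTop :=
      tendsto_atTop_add_const_left _ _ tendsto_natCast_atTop_atTop
    have h5 : ∀ n : ℕ, L ≤ L + n := fun n => le_add_of_nonneg_right n.cast_nonneg
    choose p hp using fun n : ℕ => (hL _ (h5 n)).1
    refine ⟨fun n => t₀ + -1 / (L + n) ^ 2, p, fun n => tup_lt (hL _ (h5 n)).2 m1,
      (tendsto_time t₀ (-1)).comp h4, ?_⟩
    simp only [hp]
    exact h3.comp h4
  · rintro ⟨t, p, h1, h2, h3⟩
    obtain ⟨φ, hφ, hφc, h4⟩ := mass_of_reached P218FS.huisken Hu.dens_proof ha.2 hM hD' (x₀ := x₀)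
      fun δ hδ => by
        obtain ⟨i, hi1, hi2⟩ := ((h2.eventually (lt_mem_nhds (sub_lt_self t₀ hδ))).and
          (h3.eventually (ball_mem_nhds x₀ hδ))).exists
        exact ⟨t i, ⟨hi1, h1 i⟩, _, ⟨p i, rfl⟩, by rwa [← dist_eq_norm]⟩
    have h5 := ge_of_tendsto (hc1 φ hφ hφc) h4
    by_contra hn
    rw [not_nonempty_iff_eq_empty] at hn
    rw [hn, area, Measure.restrict_empty, integral_zero_measure] at h5
    norm_num at h5
  · rw [singular_iff (h.mono hT) ht₀]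
    constructor
    · intro hn
      refine ⟨?_, ?_⟩
      · by_contra h1
        rw [not_nonempty_iff_eq_empty] at h1
        refine hn (bdd_of_le_one ha.2 hM hD' hu fun s _ y => ?_)
        have h2 : ssFlow S s = ∅ := by
          rw [h1]; rfl
        rw [h2, gA, area, Measure.restrict_empty, integral_zero_measure]
        exact zero_le_one
      · rintro ⟨e, he, h1⟩
        refine hn (bdd_of_le_one ha.2 hM hD' hu fun s hs y => ?_)
        rw [h1, ssFlow_plane e hs]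
        exact gA_plane he y
    · rintro ⟨h1, h2⟩ hb
      exact h2 (plane_of hS h1 (orth_of_bdd ⟨hS, hsh⟩ hs1 hb))

end Vale.Agent.N218
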