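import Vale.Agent.N218.Rate
import Vale.Agent.P218G.DynB
import Mathlib.MeasureTheory.Measure.Support

/-! The rate of convergence to a self-shrinker: measures and Hausdorff distance. -/

open MeasureTheory Set Filter Topology Metric
open scoped ENNReal NNReal RealInnerProductSpace ContDiff

namespace Vale.Agent.N218.Rate

open Vale.Agent.P218FT
open Vale.Agent.P218.H313 (RF rho dis FA nearF nearF_atTop nearF_sl rho_pos continuous_rho)
open Vale.Agent.P218F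
open Vale.Agent.P218F.Dyn (hm Cv)
open Vale.Agent.P218F.DynBridge
open Vale.Agent.P218G.Dyn (SmIn restrict_eq_of_subset poinEv_of_smIn)

lemma exists_test : ∃ K : ℝ, 0 < K ∧ ∀ (y : E3) (δ : ℝ), 0 < δ → δ ≤ 1 → ∃ f : E3 → ℝ,
    ContDiff ℝ 1 f ∧ HasCompactSupport f ∧ (∀ x, 0 ≤ f x) ∧ (∀ x, |f x| ≤ 1) ∧
      (∀ x, ‖fderiv ℝ f x‖ ≤ 1) ∧ (∀ x ∈ closedBall y (2 * δ), δ / K ≤ f x) ∧
      ∀ x, 3 * δ ≤ ‖x - y‖ → f x = 0 := by
  let g : ContDiffBump (0 : E3) := ⟨2, 3, two_pos, by norm_num⟩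
  have hg : ContDiff ℝ 1 g := g.contDiff
  obtain ⟨B, hB⟩ := (hg.continuous_fderiv one_ne_zero).bounded_above_of_compact_support
    (g.hasCompactSupport.fderiv (𝕜 := ℝ))
  have hB0 : 0 ≤ B := (norm_nonneg _).trans (hB 0)
  refine ⟨B + 1, by linarith, fun y δ h0 h1 => ?_⟩
  have hK : 0 < δ / (B + 1) := by positivity
  have hz : ∀ x, 3 * δ ≤ ‖x - y‖ → δ / (B + 1) * g (δ⁻¹ • (x - y)) = 0 := fun x hx => by
    rw [g.zero_of_le_dist, mul_zero]
    rw [dist_zero_right, norm_smul, norm_inv, Real.norm_of_nonneg h0.le, le_inv_mul_iff₀ h0]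
    exact (mul_comm δ 3).le.trans hx
  refine ⟨fun x => δ / (B + 1) * g (δ⁻¹ • (x - y)), contDiff_const.mul (hg.comp (by fun_prop)),
    HasCompactSupport.intro (isCompact_closedBall y (3 * δ)) fun x hx =>
      hz x (not_le.1 fun h => hx (mem_closedBall_iff_norm.2 h)).le,
    fun x => mul_nonneg hK.le g.nonneg, fun x => ?_, fun x => ?_, fun x hx => ?_, hz⟩
  · rw [abs_of_nonneg (mul_nonneg hK.le g.nonneg)]
    exact mul_le_one₀ ((div_le_one (by linarith)).2 (by linarith)) g.nonneg g.le_one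
  · have h2 := ((hg.differentiable one_ne_zero (δ⁻¹ • (x - y))).hasFDerivAt.comp x
      (((hasFDerivAt_id x).sub_const y).const_smul δ⁻¹)).const_mul (δ / (B + 1))
    erw [h2.fderiv]
    rw [norm_smul, Real.norm_of_nonneg hK.le]
    have h3 : ‖(fderiv ℝ g (δ⁻¹ • (x - y))).comp (δ⁻¹ • ContinuousLinearMap.id ℝ E3)‖ ≤
        B * δ⁻¹ := by
      refine (ContinuousLinearMap.opNorm_comp_le _ _).trans
        (mul_le_mul (hB _) ?_ (norm_nonneg _) hB0)
      rw [norm_smul, norm_inv, Real.norm_of_nonneg h0.le]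
      exact mul_le_of_le_one_right (by positivity) ContinuousLinearMap.norm_id_le
    refine (mul_le_mul_of_nonneg_left h3 hK.le).trans ?_
    rw [show δ / (B + 1) * (B * δ⁻¹) = B / (B + 1) by field_simp, div_le_one (by linarith)]
    linarith
  · dsimp only
    rw [g.one_of_mem_closedBall, mul_one]
    rw [mem_closedBall_zero_iff, norm_smul, norm_inv, Real.norm_of_nonneg h0.le,
      inv_mul_le_iff₀ h0]
    exact (mem_closedBall_iff_norm.1 hx).trans (mul_comm 2 δ).le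

lemma lower {μ : Measure E3} [IsLocallyFiniteMeasure μ] {f : E3 → ℝ} (h0 : ∀ x, 0 ≤ f x)
    (hi : Integrable (fun x => f x * rho x) μ) {y : E3} {R δ a c : ℝ} (hy : ‖y‖ ≤ R) (hδ : δ ≤ 1)
    (ha : 0 ≤ a) (hf : ∀ x ∈ closedBall y (2 * δ), a ≤ f x)
    (hc : c ≤ μ.real (closedBall y (2 * δ))) :
    a * Real.exp (-(R + 2) ^ 2 / 4) * c ≤ ∫ x, f x * rho x ∂μ := by
  refine (mul_le_mul_of_nonneg_left hc (by positivity)).trans ?_
  refine (setIntegral_ge_of_const_le_real measurableSet_closedBall measure_closedBall_lt_top.ne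
    (fun x hx => ?_) hi.integrableOn).trans (setIntegral_le_integral hi
      (Eventually.of_forall fun x => mul_nonneg (h0 x) (rho_pos x).le))
  refine mul_le_mul (hf x hx) (Real.exp_le_exp.2 ?_) (Real.exp_pos _).le (h0 x)
  have h1 : ‖x‖ ≤ R + 2 := by linarith [norm_sub_norm_le x y, mem_closedBall_iff_norm.1 hx]
  linarith [pow_le_pow_left₀ (norm_nonneg x) h1 2]

/-- the mass of small balls about the points of the support -/
lemma mass_ge {R r C : ℝ} (hr : 0 < r) : ∃ δ₀ : ℝ, 0 < δ₀ ∧ δ₀ ≤ 1 ∧ ∀ μ : Measure E3,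
    SmIn μ (R + 3) r C → ∀ y ∈ μ.support, ‖y‖ ≤ R → ∀ δ, 0 < δ → δ ≤ δ₀ →
      (cE : ℝ)⁻¹ * Real.pi * δ ^ 2 ≤ μ.real (closedBall y (2 * δ)) := by
  have hC : 0 < |C| + 1 := by positivity
  refine ⟨min 1 (min (r / 4) (1 / 20 / (|C| + 1))), by positivity, min_le_left _ _, ?_⟩
  rintro μ ⟨M, hM, he, htp⟩ y hy hyR δ h0 h1
  simp only [le_min_iff] at h1
  obtain ⟨d1, d2, d3⟩ := h1
  rw [le_div_iff₀ hC] at d3
  have hyM : y ∈ M := by
    by_contra h2
    refine (Measure.notMem_support_iff_exists.2 ⟨Mᶜ ∩ ball 0 (R + 3), inter_mem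
      (hM.1.isOpen_compl.mem_nhds h2) (isOpen_ball.mem_nhds (mem_ball_zero_iff.2 (by linarith))),
      ?_⟩) hy
    rw [← Measure.restrict_apply hM.1.measurableSet.compl, he]
    exact measure_mono_null (fun x hx => hx) (ae_restrict_of_ae (ae_mem hM.1))
  obtain ⟨J, pr, h, D⟩ := Mesh.exists_disc (δ := δ) (C := C) (r₀ := r) hM hyM h0
    (by nlinarith [le_abs_self C]) (by linarith) fun z hz h3 => htp z hz (by
      linarith [norm_sub_norm_le z y])
  have := Chart.locFin_proof _ hM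
  have h5 := (ENNReal.ofReal_le_iff_le_toReal measure_closedBall_lt_top.ne).1 (D.area_ge h0.le)
  have h6 : closedBall y (2 * δ) ⊆ ball (0 : E3) (R + 3) := fun x hx =>
    mem_ball_zero_iff.2 (by linarith [norm_sub_norm_le x y, mem_closedBall_iff_norm.1 hx])
  rw [Measure.real, ← Measure.restrict_apply_self, restrict_eq_of_subset he h6,
    Measure.restrict_apply_self, hm_eq, Measure.smul_apply, ENNReal.toReal_smul, NNReal.smul_def,
    smul_eq_mul, NNReal.coe_inv, mul_assoc]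
  exact mul_le_mul_of_nonneg_left h5 (inv_nonneg.2 cE_pos.le)

lemma support_hm {S : Set E3} (hS : IsSurf S) : (hm S).support = S := by
  refine (Measure.support_subset_of_isClosed hS.1 (ae_mem hS.1)).antisymm fun y hy => ?_
  refine (nhds_basis_ball.mem_measureSupport).2 fun r hr => pos_iff_ne_zero.2 fun h => ?_
  refine (Mesh.area_ball_pos hS hy hr).ne' ?_
  rw [area_eq, Measure.smul_apply, h, smul_zero]

/-- two measures which are close have close supports -/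
lemma exists_near : ∃ K : ℝ, 0 < K ∧ ∀ (μ κ : Measure E3) [IsLocallyFiniteMeasure μ] (y : E3)
    (R δ c η : ℝ), ‖y‖ ≤ R → 0 < δ → δ ≤ 1 → c ≤ μ.real (closedBall y (2 * δ)) →
    (∀ f : E3 → ℝ, ContDiff ℝ 1 f → (∀ x, |f x| ≤ 1) → (∀ x, ‖fderiv ℝ f x‖ ≤ 1) →
      |∫ x, f x * rho x ∂μ - ∫ x, f x * rho x ∂κ| ≤ η) →
    η < δ / K * Real.exp (-(R + 2) ^ 2 / 4) * c → ∃ x ∈ κ.support, ‖x - y‖ ≤ 3 * δ := by
  obtain ⟨K, hK, h⟩ := exists_test
  refine ⟨K, hK, fun μ κ _ y R δ c η hy h0 h1 hc hη hlt => ?_⟩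
  obtain ⟨f, a1, a2, a3, a4, a5, a6, a7⟩ := h y δ h0 h1
  by_contra hcon
  push Not at hcon
  have h2 := hη f a1 a4 a5
  rw [integral_eq_zero_of_ae (μ := κ) (by
    filter_upwards [κ.support_mem_ae] with x hx
    simp [a7 x (hcon x hx).le]), sub_zero] at h2
  have h3 := lower a3 ((a1.continuous.mul continuous_rho).integrable_of_hasCompactSupport
    a2.mul_right) hy h1 (by positivity) a6 hc
  linarith [le_abs_self (∫ x, f x * rho x ∂μ)]

variable {N : ℝ → Measure E3} {T : ℝ → E3 → Submodule ℝ E3} {H : ℝ → E3 → E3} {S : Set E3}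
  {s₀ : ℝ}

lemma loj (h : RF 2 N T H s₀) (hS : IsSurf S) (hSt : S.Nonempty → P218G.Rg.StaticFor S)
    (hc : ∀ φ : E3 → ℝ, Continuous φ → HasCompactSupport φ →
      Tendsto (fun s => ∫ x, φ x ∂(N s)) atTop (𝓝 (∫ x, φ x ∂(hm S))))
    (hsm : ∀ R : ℝ, ∃ r C : ℝ, 0 < r ∧ ∀ᶠ s in atTop, SmIn (N s) R r C) :
    ∃ γ n : ℝ, 1 / 2 < γ ∧ 0 < n ∧ ∀ᶠ s in nearF 2 N T H (hm S),
      FA (N s) - FA (hm S) ≤ n * DynFlow.dd N T H s ^ γ := by
  have hlf := locFin_hm hS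
  rcases S.eq_empty_or_nonempty with he | hne
  · have h4 := (DynFlow.tendsto_FA h tendsto_natCast_atTop_atTop
      (fun φ a b => (hc φ a b).comp tendsto_natCast_atTop_atTop)).1
    have h5 : FA (hm S) = 0 := by rw [he, hm, Measure.restrict_empty, FA, integral_zero_measure]
    rw [h5] at h4 ⊢
    obtain ⟨r, C, hr, h1⟩ := hsm (4 + 3)
    obtain ⟨δ, d0, d1, h2⟩ := mass_ge (R := 4) (C := C) hr
    have h3 : 0 < 1 * Real.exp (-(4 + 2) ^ 2 / 4) * ((cE : ℝ)⁻¹ * Real.pi * δ ^ 2) := by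
      have := cE_pos
      positivity
    refine ⟨1, 1, by norm_num, one_pos, ?_⟩
    filter_upwards [nearF_atTop h1, nearF_atTop (h4.eventually (gt_mem_nhds h3)), nearF_sl,
      nearF_atTop (eventually_ge_atTop s₀)] with s a1 a2 a3 a4
    rw [sub_zero, one_mul, Real.rpow_one]
    refine FA_le_dis a3 ?_
    filter_upwards [(N s).support_mem_ae] with y hy
    by_contra h6
    have := h.fin s a4
    have h7 := lower (f := fun _ => 1) (fun _ => zero_le_one) (by simpa using a3.mom 0)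
      (not_le.1 h6).le d1 zero_le_one (fun _ _ => le_rfl) (h2 _ a1 y hy (not_le.1 h6).le δ d0 le_rfl)
    simp only [one_mul] at h7 a2
    exact absurd a2 (not_lt.2 h7)
  have hCv : Cv (nearF 2 N T H (hm S)) N T H (hm S) := fun U hU => h.conv hU
  have h2 : ∀ R : ℝ, ∃ r C : ℝ, 0 < r ∧ ∀ᶠ s in nearF 2 N T H (hm S), SmIn (N s) R r C :=
    fun R => (hsm R).imp fun _ => Exists.imp fun _ h1 => ⟨h1.1, nearF_atTop h1.2⟩
  obtain ⟨γ, hγ, h4⟩ := hSt hne _ N T H hCv (fun R => by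
    obtain ⟨r, C, hr, h1⟩ := h2 (R + 1)
    exact ⟨r, C, hr, (h1.and nearF_sl).mono fun s hs => hs.1.sheet hs.2.mc⟩)
    (poinEv_of_smIn hS hCv h2)
  obtain ⟨n, hn⟩ := loj_uniform h (by linarith) h4
  refine ⟨γ, n + 1, hγ, by positivity, hn.mono fun s hs => hs.trans ?_⟩
  exact mul_le_mul_of_nonneg_right (by linarith)
    (Real.rpow_nonneg Vale.Agent.P218.H313.dis_nonneg _)

/-- **The rates.** -/
theorem core (h : RF 2 N T H s₀) (hS : IsSurf S) (hSt : S.Nonempty → P218G.Rg.StaticFor S)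
    (hS2 : ∃ r C : ℝ, 0 < r ∧ ∀ x ∈ S, TwoPt S x r C)
    (hc : ∀ φ : E3 → ℝ, Continuous φ → HasCompactSupport φ →
      Tendsto (fun s => ∫ x, φ x ∂(N s)) atTop (𝓝 (∫ x, φ x ∂(hm S))))
    (hsm : ∀ R : ℝ, ∃ r C : ℝ, 0 < r ∧ ∀ᶠ s in atTop, SmIn (N s) R r C) :
    ∃ α : ℝ, 0 < α ∧ Integrable rho (hm S) ∧ (∃ C : ℝ, 0 < C ∧ ∀ᶠ s in atTop,
      (0 ≤ FA (N s) - FA (hm S) ∧ FA (N s) - FA (hm S) ≤ C * s ^ (-(1 + α))) ∧
      ∀ f : E3 → ℝ, ContDiff ℝ 1 f → (∀ x, |f x| ≤ 1) → (∀ x, ‖fderiv ℝ f x‖ ≤ 1) →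
        |∫ x, f x * rho x ∂(N s) - ∫ x, f x * rho x ∂(hm S)| ≤ C * s ^ (-α)) ∧
      ∀ R : ℝ, ∃ C : ℝ, 0 < C ∧ ∀ᶠ s in atTop,
        (∀ y ∈ (N s).support, ‖y‖ ≤ R → ∃ x ∈ S, ‖x - y‖ ≤ C * s ^ (-α)) ∧
        ∀ y ∈ S, ‖y‖ ≤ R → ∃ x ∈ (N s).support, ‖x - y‖ ≤ C * s ^ (-α) := by
  have hlf := locFin_hm hS
  obtain ⟨γ, n, hγ, hn, hL⟩ := loj h hS hSt hc hsm
  obtain ⟨α, C, hα, hC, hI, h1⟩ := rate h hc hγ hn hL
  refine ⟨α / 3, by positivity, hI, ⟨C, hC, ?_⟩, fun R => ?_⟩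
  · filter_upwards [h1, eventually_ge_atTop 1] with s a1 a2
    refine ⟨⟨a1.1.1, a1.1.2.trans ?_⟩, fun f b1 b2 b3 => (a1.2 f b1 b2 b3).trans ?_⟩ <;>
      exact mul_le_mul_of_nonneg_left (Real.rpow_le_rpow_of_exponent_le a2 (by linarith)) hC.le
  obtain ⟨K, hK, h2⟩ := exists_near
  obtain ⟨r, C₁, hr, h3⟩ := hsm (R + 3)
  obtain ⟨δ₁, d0, d1, h4⟩ := mass_ge (R := R) (C := C₁) hr
  obtain ⟨r', C₂, hr', h5⟩ := hS2
  obtain ⟨δ₂, d2, -, h6⟩ := mass_ge (R := R) (C := C₂) hr'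
  set c : ℝ := K⁻¹ * Real.exp (-(R + 2) ^ 2 / 4) * ((cE : ℝ)⁻¹ * Real.pi) with hc'
  have c0 : 0 < c := by
    have := cE_pos
    positivity
  set L : ℝ := C / c + 1 with hL'
  have L1 : 1 ≤ L := by
    have : 0 < C / c := by positivity
    linarith
  have L2 : C < c * L ^ 3 := by
    have e1 : C < c * L := by rw [hL', mul_add, mul_div_cancel₀ _ c0.ne']; linarith
    exact e1.trans_le (mul_le_mul_of_nonneg_left (le_self_pow₀ L1 three_ne_zero) c0.le)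
  have h7 := (tendsto_rpow_neg_atTop (show 0 < α / 3 by positivity)).const_mul L
  rw [mul_zero] at h7
  refine ⟨3 * L, by linarith, ?_⟩
  filter_upwards [h1, h3, h7.eventually (ge_mem_nhds (lt_min d0 d2)), eventually_ge_atTop s₀,
    eventually_gt_atTop 0] with s a1 a2 a3 a4 a5
  have := h.fin s a4
  have b0 : 0 < L * s ^ (-(α / 3)) := by positivity
  have b1 := (le_min_iff.1 a3).1
  have b2 : C * s ^ (-α) < L * s ^ (-(α / 3)) / K * Real.exp (-(R + 2) ^ 2 / 4) *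
      ((cE : ℝ)⁻¹ * Real.pi * (L * s ^ (-(α / 3))) ^ 2) := by
    have e1 : s ^ (-α) = (s ^ (-(α / 3))) ^ 3 := by
      rw [← Real.rpow_natCast, ← Real.rpow_mul a5.le]
      congr 1
      push_cast
      ring
    refine (mul_lt_mul_of_pos_right L2 (Real.rpow_pos_of_pos a5 _)).trans_le (le_of_eq ?_)
    rw [e1, hc']
    field_simp
  rw [mul_assoc]
  refine ⟨fun y hy hyR => ?_, fun y hy hyR => ?_⟩
  · obtain ⟨x, hx, e⟩ := h2 (N s) (hm S) y R _ _ _ hyR b0 (b1.trans d1) (h4 _ a2 y hy hyR _ b0 b1)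
      a1.2 b2
    exact ⟨x, support_hm hS ▸ hx, e⟩
  · exact h2 (hm S) (N s) y R _ _ _ hyR b0 (b1.trans d1)
      (h6 _ ⟨S, hS, rfl, fun z hz _ => h5 z hz⟩ y ((support_hm hS).symm ▸ hy) hyR _ b0
        (le_min_iff.1 a3).2)
      (fun f e1 e2 e3 => by rw [abs_sub_comm]; exact a1.2 f e1 e2 e3) b2

end Vale.Agent.N218.Rate
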