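import Vale.Agent.N218.Main
import Vale.Agent.N218.RCore
import Vale.Agent.N218.Interp
import Vale.Agent.P218F.Fin

/-! The logarithmic rate for smooth flows up to the first singular time. -/

open MeasureTheory Set Filter Topology Metric
open scoped Manifold ContDiff RealInnerProductSpace

namespace Vale.Agent.N218.Rate

open Vale.Agent.P218FT Vale.Agent.P218FT.Conv Vale.Agent.P218FS
open Vale.Agent.P218S.St (SmoothTendsto rescaledSurface shrinkingSurface)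
open Vale.Agent.P218.H313 (rho FA)
open Vale.Agent.P218F.Dyn (hm)
open Vale.Agent.P218F.DynBridge

lemma two_log : Tendsto (fun lam : ℝ => 2 * Real.log lam) atTop atTop :=
  Real.tendsto_log_atTop.const_mul_atTop two_pos

lemma two_log_le {lam α : ℝ} (hl : 1 < lam) (hα : 0 ≤ α) :
    (2 * Real.log lam) ^ (-α) ≤ Real.log lam ^ (-α) :=
  Real.rpow_le_rpow_of_nonpos (Real.log_pos hl) (by linarith [Real.log_pos hl]) (neg_nonpos.2 hα)

/-- from the time `-1` to all negative times -/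
lemma haus_time {A : ℝ → Set E3} {M : ℝ → ℝ → Set E3} {S : Set E3} {α : ℝ} (hα : 0 < α)
    (h : ∀ R : ℝ, ∃ C : ℝ, 0 < C ∧ ∀ᶠ σ in atTop, ∀ y ∈ A σ, ‖y‖ ≤ R →
      ∃ x ∈ S, ‖x - y‖ ≤ C * σ ^ (-α))
    {R a b : ℝ} (hb : b < 0) (hM : ∀ᶠ lam in atTop, ∀ τ ∈ Icc a b, ∀ y ∈ M lam τ, ‖y‖ ≤ R →
      (√(-τ))⁻¹ • y ∈ A (2 * Real.log (lam / √(-τ)))) :
    ∃ C : ℝ, ∀ᶠ lam in atTop, ∀ τ ∈ Icc a b, ∀ y ∈ M lam τ, ‖y‖ ≤ R →
      ∃ x ∈ shrinkingSurface S τ, ‖x - y‖ ≤ C * Real.log lam ^ (-α) := by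
  obtain ⟨C, hC, h1⟩ := h ((√(-b))⁻¹ * R)
  obtain ⟨σ₁, h1⟩ := eventually_atTop.1 h1
  refine ⟨√(-a) * C, ?_⟩
  filter_upwards [hM, Real.tendsto_log_atTop.eventually_ge_atTop σ₁, eventually_gt_atTop 1,
    eventually_ge_atTop (-a)] with lam a1 a2 a3 a4 τ hτ y hy hyR
  have b0 : 0 < -τ := by linarith [hτ.2]
  have b1 : 0 < √(-τ) := Real.sqrt_pos.2 b0
  have b2 : Real.log lam ≤ 2 * Real.log (lam / √(-τ)) := by
    rw [Real.log_div (by linarith) b1.ne', Real.log_sqrt b0.le]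
    linarith [Real.log_le_log b0 (show -τ ≤ lam by linarith [hτ.1])]
  obtain ⟨x, hx, b3⟩ := h1 _ (a2.trans b2) _ (a1 τ hτ y hy hyR) (by
    rw [norm_smul, norm_inv, Real.norm_of_nonneg b1.le]
    exact mul_le_mul (inv_anti₀ (Real.sqrt_pos.2 (by linarith))
      (Real.sqrt_le_sqrt (by linarith [hτ.2]))) hyR (norm_nonneg _) (by positivity))
  refine ⟨_, ⟨x, hx, rfl⟩, ?_⟩
  rw [← smul_inv_smul₀ b1.ne' y, ← smul_sub, norm_smul, Real.norm_of_nonneg b1.le, mul_assoc]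
  refine mul_le_mul (Real.sqrt_le_sqrt (by linarith [hτ.1])) (b3.trans ?_) (norm_nonneg _)
    (Real.sqrt_nonneg _)
  exact mul_le_mul_of_nonneg_left
    (Real.rpow_le_rpow_of_nonpos (Real.log_pos a3) b2 (neg_nonpos.2 hα.le)) hC.le

theorem rate_closed {D G a b : ℝ} {M : ℝ → Set E3} {x₀ : E3} {S : Set E3} (hab : a < b)
    (hcl : IsClosedFlow M a b) (hM : InC D G M (Ioo a b)) (hS : IsSurf S)
    (hc : ∀ φ : E3 → ℝ, Continuous φ → HasCompactSupport φ →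
      Tendsto (fun lam : ℝ => ∫ x, φ x ∂(area (scaleFlow lam x₀ b M (-1)))) atTop
        (𝓝 (∫ x, φ x ∂(area S)))) :
    ∃ α : ℝ, 0 < α ∧ Integrable rho (area S) ∧ (∃ C : ℝ, 0 < C ∧ ∀ᶠ lam in atTop,
      IsFiniteMeasure (area (scaleFlow lam x₀ b M (-1))) ∧
      (0 ≤ ∫ x, rho x ∂(area (scaleFlow lam x₀ b M (-1))) - ∫ x, rho x ∂(area S) ∧
        ∫ x, rho x ∂(area (scaleFlow lam x₀ b M (-1))) - ∫ x, rho x ∂(area S) ≤
          C * Real.log lam ^ (-(1 + α))) ∧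
      ∀ f : E3 → ℝ, ContDiff ℝ 1 f → (∀ x, |f x| ≤ 1) → (∀ x, ‖fderiv ℝ f x‖ ≤ 1) →
        |∫ x, f x * rho x ∂(area (scaleFlow lam x₀ b M (-1))) - ∫ x, f x * rho x ∂(area S)| ≤
          C * Real.log lam ^ (-α)) ∧
      ∀ R a' b' : ℝ, b' < 0 → ∃ C : ℝ, ∀ᶠ lam in atTop, ∀ τ ∈ Icc a' b',
        ∀ y ∈ scaleFlow lam x₀ b M τ, ‖y‖ ≤ R →
          ∃ x ∈ shrinkingSurface S τ, ‖x - y‖ ≤ C * Real.log lam ^ (-α) := by
  have hU : (Ultrafilter.of (atTop : Filter ℝ) : Filter ℝ) ≤ atTop := Ultrafilter.of_le _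
  obtain ⟨S', h1, hSC, h2, -⟩ := conv_all D G M a b hab hM x₀ ℝ _ (fun lam => lam) hU
  have m1 : (-1 : ℝ) < 0 := by norm_num
  have h3 := h2.slice_const (t := -1) m1
  rw [ssFlow_one] at h3
  have h4 : ∀ᶠ lam : ℝ in (Ultrafilter.of (atTop : Filter ℝ) : Filter ℝ),
      IsSurf (scaleFlow lam x₀ b M (-1)) :=
    hU ((ev_in hab m1).mono fun lam hi => (hM.mcf.isSurf hi.2).scale hi.1.ne' x₀)
  have := Chart.locFin_proof S hS
  have := Chart.locFin_proof S' h1.1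
  have h5 : area S' = area S := Measure.ext_of_integral_eq_on_compactlySupported fun f =>
    tendsto_nhds_unique (h3.tendsto_area h4 h1.1 f.continuous f.hasCompactSupport)
      ((hc f f.continuous f.hasCompactSupport).mono_left hU)
  obtain rfl := (subset_of_area h1.1 hS.1 h5).antisymm (subset_of_area hS h1.1.1 h5.symm)
  obtain ⟨ED⟩ := P218F.Ends.ends_proof D G S' h1 hSC
  obtain ⟨R₀, hR⟩ := hcl.bdd
  obtain ⟨s₀, h0⟩ := exists_start hab
  have hsf : ∀ᶠ s in atTop, IsSurf (rs M x₀ b s) :=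
    (eventually_ge_atTop s₀).mono fun s hs => isSurf_rs hM.mcf x₀ h0 hs
  have hrf := rf fv_proof ev_proof cont_proof hM.mcf hM.ratio hR x₀ h0
  obtain ⟨α, hα, hI, ⟨C, hC, h6⟩, h7⟩ := core hrf hS (P218F.Top.static_of_LS P218F.Fin.ls D G S' h1 hSC)
    (ED.twoPt.imp fun _ => Exists.imp fun _ h => ⟨h.1, h.2.2⟩)
    (fun φ c1 c2 => by
      simp only [integral_hm, rs_eq]
      exact ((hc φ c1 c2).comp (Real.tendsto_exp_atTop.comp
        (tendsto_id.atTop_div_const two_pos))).const_mul _)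
    fun R => by
      obtain ⟨r, C, hr, -, h⟩ := twoPt_rs t1_all hab hM x₀ R
      exact ⟨r, C, hr, (hsf.and h).mono fun s hs => ⟨_, hs.1, rfl, hs.2⟩⟩
  have c0 := cE_pos
  refine ⟨α, hα, area_eq S' ▸ hI.smul_measure_nnreal, ⟨cE * C, by positivity, ?_⟩,
    fun R a' b' hb => haus_time (A := rs M x₀ b) hα (fun R => ?_) hb ?_⟩
  · filter_upwards [two_log.eventually (h6.and ((eventually_ge_atTop s₀).mono hrf.fin)),
      eventually_gt_atTop 1] with lam ⟨a1, a0⟩ a2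
    rw [rs_eq, mul_div_cancel_left₀ _ two_ne_zero, Real.exp_log (by linarith)] at a0 a1
    refine ⟨by rw [area_eq]; infer_instance, ?_⟩
    simp only [integral_area, ← mul_sub, abs_mul, abs_of_pos c0, mul_assoc]
    exact ⟨⟨mul_nonneg c0.le a1.1.1, mul_le_mul_of_nonneg_left (a1.1.2.trans
      (mul_le_mul_of_nonneg_left (two_log_le a2 (by linarith)) hC.le)) c0.le⟩,
      fun f b1 b2 b3 => mul_le_mul_of_nonneg_left ((a1.2 f b1 b2 b3).trans
        (mul_le_mul_of_nonneg_left (two_log_le a2 hα.le) hC.le)) c0.le⟩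
  · obtain ⟨C', hC', h8⟩ := h7 R
    refine ⟨C', hC', (h8.and hsf).mono fun s hs => ?_⟩
    have h9 := hs.1.1
    rwa [support_hm hs.2] at h9
  · filter_upwards [eventually_gt_atTop 0] with lam hl τ hτ y hy _
    rw [P218F.DynCore.scaleFlow_eq hl (hτ.2.trans_lt hb)] at hy
    simpa [scaleSet] using hy

variable {N : Type*} [TopologicalSpace N] [ChartedSpace R2 N] {F : ℝ → N → R3} {T : ℝ}
  [IsManifold (𝓡 2) ∞ N] [CompactSpace N] [T2Space N]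

theorem main_rate [ConnectedSpace N] (h : IsSmoothMCF F T) {μ : ℝ → Measure R3}
    (hμ : ∀ t ∈ Ico 0 T, μ t = area (range (F t))) (x₀ : R3) {t₀ : ℝ} (ht₀ : 0 < t₀)
    (hT : t₀ ≤ T) :
    ∃ (S : Set R3) (α : ℝ), IsShrinker S ∧ 0 < α ∧
      IsTangentFlow μ x₀ t₀ (shrinkerFlow S) ∧
      (∀ ν, IsTangentFlow μ x₀ t₀ ν → ∀ s < 0, ν s = shrinkerFlow S s) ∧
      RSt.SmoothRate α (rescaledSurface F x₀ t₀) (shrinkingSurface S) ∧
      Integrable rho (area S) ∧ ∃ C : ℝ, ∀ᶠ lam in atTop,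
        IsFiniteMeasure (rescaled μ x₀ t₀ lam (-1)) ∧ (∀ f : E3 → ℝ, ContDiff ℝ 1 f → (∀ x, |f x| ≤ 1) → (∀ x, ‖fderiv ℝ f x‖ ≤ 1) →
          |∫ x, f x * rho x ∂(rescaled μ x₀ t₀ lam (-1)) - ∫ x, f x * rho x ∂(area S)| ≤
            C * Real.log lam ^ (-α)) ∧
        0 ≤ ∫ x, rho x ∂(rescaled μ x₀ t₀ lam (-1)) - ∫ x, rho x ∂(area S) ∧
        ∫ x, rho x ∂(rescaled μ x₀ t₀ lam (-1)) - ∫ x, rho x ∂(area S) ≤
          C * Real.log lam ^ (-(1 + α)) := by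
  have hcl := (h.mono hT).isClosedFlow
  have ha : t₀ / 2 ∈ Ioo 0 t₀ := ⟨by linarith, by linarith⟩
  obtain ⟨D, hD'⟩ := ratio _ _ _ hcl _ ha
  obtain ⟨G, hG'⟩ := P218F.Lgb.lgbFlow_proof _ _ _ hcl _ ha
  have hM : IsMCF (fun t => range (F t)) (Ioo (t₀ / 2) t₀) :=
    isMCF_mono hcl.mcf isOpen_Ioo (Ioo_subset_Ioo_left ha.1.le)
  have hcl' : IsClosedFlow (fun t => range (F t)) (t₀ / 2) t₀ :=
    ⟨hM, hcl.bdd.imp fun R hR t ht => hR t (Ioo_subset_Ioo_left ha.1.le ht),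
      fun t ht => hcl.conn t (Ioo_subset_Ioo_left ha.1.le ht)⟩
  obtain ⟨S, hS, hsh, hconv⟩ := P218F.Top.core_of_staticStmt (P218F.Top.static_of_LS P218F.Fin.ls)
    D G _ _ _ ha.2 hcl' ⟨hM, hD', hG'⟩ x₀
  have he : ∀ s < 0, ∀ᶠ lam : ℝ in atTop,
      rescaled μ x₀ t₀ lam s = area (scaleFlow lam x₀ t₀ (fun t => range (F t)) s) := by
    intro s hs
    filter_upwards [ev_in ht₀ hs] with lam hl
    rw [rescaled, hμ _ ⟨hl.2.1.le, hl.2.2.trans_le hT⟩, scaleFlow, area_scale hl.1]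
  have hw : ∀ s < 0, WeakTendsto atTop (fun lam : ℝ => rescaled μ x₀ t₀ lam s)
      (shrinkerFlow S s) := by
    intro s hs φ hφ hφc
    rw [shrinkerFlow_eq S hs]
    refine (hconv s hs φ hφ hφc).congr' ((he s hs).mono fun lam hl => ?_)
    simp only [hl]
  have hlf : ∀ s < 0, IsLocallyFiniteMeasure (shrinkerFlow S s) := by
    intro s hs
    rw [shrinkerFlow_eq S hs]
    exact Chart.locFin_proof _ (hS.scale (Real.sqrt_pos.2 (neg_pos.2 hs)).ne' 0)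
  have m1 : (-1 : ℝ) < 0 := by norm_num
  have hc1 := hconv (-1) m1
  rw [scaleSet_one] at hc1
  have e1 : ∀ᶠ lam : ℝ in atTop,
      rescaledSurface F x₀ t₀ lam = scaleFlow lam x₀ t₀ fun t => range (F t) := by
    filter_upwards [eventually_gt_atTop 0] with lam hl
    exact funext fun s => image_eq hl.ne' x₀ _
  obtain ⟨α, hα, hI, ⟨C, hC, h1⟩, h2⟩ := rate_closed ha.2 hcl' ⟨hM, hD', hG'⟩ hS hc1
  refine ⟨S, α / 2, isShrinker_of hS hsh, by positivity, ⟨hlf, fun i => (i : ℝ),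
    tendsto_natCast_atTop_atTop, fun s hs φ hφ hφc =>
      (hw s hs φ hφ hφc).comp tendsto_natCast_atTop_atTop⟩, ?_,
    smoothRate hα (smoothTendsto (slim_ultra ha.2 ⟨hM, hD', hG'⟩ hS hc1) e1) fun R a b hb => ?_,
    hI, C, ?_⟩
  · rintro ν ⟨hν, lam, hlam, hc⟩ s hs
    have := hν s hs
    have := hlf s hs
    exact (hc s hs).unique fun φ hφ hφc => (hw s hs φ hφ hφc).comp hlam
  · obtain ⟨C', h3⟩ := h2 R a b hb
    exact ⟨C', (h3.and e1).mono fun lam hl => hl.2 ▸ hl.1⟩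
  · filter_upwards [h1, he _ m1, Real.tendsto_log_atTop.eventually_ge_atTop 1] with lam a1 a2 a3
    rw [a2]
    refine ⟨a1.1, fun f b1 b2 b3 => (a1.2.2 f b1 b2 b3).trans ?_, a1.2.1.1,
      a1.2.1.2.trans ?_⟩ <;>
      exact mul_le_mul_of_nonneg_left (Real.rpow_le_rpow_of_exponent_le a3 (by linarith)) hC.le

end Vale.Agent.N218.Rate
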