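import Vale.Agent.P218S.St
import Mathlib.Analysis.SpecialFunctions.Pow.Real

/-! Locally smooth convergence, with multiplicity one and with a logarithmic rate. -/

open Set Filter Metric

namespace Vale.Agent.N218.RSt

open Vale.Agent.P218FS.St Vale.Agent.P218S.St

/-- near the space-time point `(x, s)` the moving sets `M λ` (`λ` large) and `L` are single smooth
graphs over one plane in one cylinder, and for every `k` the derivatives of order `k` (in space and
time) of the graphs differ by at most `C_k (log λ)^{-α}` -/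
def GraphRateAt (α : ℝ) (M : ℝ → ℝ → Set R3) (L : ℝ → Set R3) (x : R3) (s : ℝ) : Prop :=
  ∃ (J : R2 →ₗᵢ[ℝ] R3) (e : R3) (r h : ℝ) (u : ℝ → R2 × ℝ → ℝ) (u₀ : R2 × ℝ → ℝ),
    IsFrame J e ∧ 0 < r ∧ r ≤ -s ∧ IsGraphIn L x J e (ball (0, s) r) h u₀ ∧
    (∀ᶠ lam in atTop, IsGraphIn (M lam) x J e (ball (0, s) r) h (u lam)) ∧
    ∀ k : ℕ, ∃ C : ℝ, ∀ᶠ lam in atTop, ∀ q ∈ ball ((0 : R2), s) r,
      ‖iteratedFDeriv ℝ k (u lam) q - iteratedFDeriv ℝ k u₀ q‖ ≤ C * Real.log lam ^ (-α)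

/-- the moving surfaces `M λ` converge, as `λ → ∞`, locally smoothly, with multiplicity one and with
the rate `(log λ)^{-α}` on `ℝ³ × (-∞, 0)` to the moving surface `L` -/
def SmoothRate (α : ℝ) (M : ℝ → ℝ → Set R3) (L : ℝ → Set R3) : Prop :=
  ∀ s < 0, ∀ x : R3, (x ∈ L s → GraphRateAt α M L x s) ∧ (x ∉ L s → AvoidsAt M x s)

end Vale.Agent.N218.RSt
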