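import Vale.Agent.P218F.DynFlow

/-! The rate of convergence of a rescaled flow which satisfies a Lojasiewicz inequality. -/

open MeasureTheory Set Filter Topology Metric
open scoped ENNReal NNReal RealInnerProductSpace

namespace Vale.Agent.N218.Rate

open Vale.Agent.P218 Vale.Agent.P218.H313 Vale.Agent.P218F.DynFlow

/-- `Φ s = O(s^{-β})` -/
def Dec (Φ : ℝ → ℝ) (β : ℝ) : Prop := ∃ C : ℝ, 0 < C ∧ ∀ᶠ s in atTop, Φ s ≤ C * s ^ (-β)

lemma Dec.mono {Φ : ℝ → ℝ} {β β' : ℝ} (h : Dec Φ β) (hβ : β' ≤ β) : Dec Φ β' := by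
  obtain ⟨C, hC, h⟩ := h
  refine ⟨C, hC, ?_⟩
  filter_upwards [h, eventually_ge_atTop 1] with s h1 h2
  exact h1.trans (mul_le_mul_of_nonneg_left
    (Real.rpow_le_rpow_of_exponent_le h2 (neg_le_neg hβ)) hC.le)

/-- the discrete differential inequality gives a decay faster than `1 / s` -/
lemma exists_dec {Φ : ℝ → ℝ} {γ n A : ℝ} (hγ : 1 / 2 < γ) (hn : 0 < n)
    (h0 : ∀ᶠ s in atTop, 0 ≤ Φ s ∧ Φ s ≤ A)
    (h : ∀ᶠ a in atTop, ∀ b, a < b → Φ b ≤ n * (Φ a / (b - a)) ^ γ) : ∃ β, 1 < β ∧ Dec Φ β := by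
  have hγ0 : 0 < γ := by linarith
  have step : ∀ β, Dec Φ β → Dec Φ (γ * (1 + β)) := by
    rintro β ⟨C, hC, h1⟩
    refine ⟨n * (C * 2 ^ (1 + β)) ^ γ, by positivity, ?_⟩
    have h2 : Tendsto (fun b : ℝ => b / 2) atTop atTop := tendsto_id.atTop_div_const two_pos
    filter_upwards [h2.eventually h, h2.eventually h1, h2.eventually h0, eventually_gt_atTop 0]
      with b a1 a2 a3 a4
    refine (a1 b (by linarith)).trans ?_
    have e1 : Φ (b / 2) / (b - b / 2) ≤ C * 2 ^ (1 + β) * b ^ (-(1 + β)) := by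
      rw [div_le_iff₀ (by linarith)]
      refine a2.trans (le_of_eq ?_)
      rw [show b - b / 2 = b / 2 by ring, Real.div_rpow a4.le zero_le_two, neg_add,
        Real.rpow_add a4, Real.rpow_add two_pos, Real.rpow_neg_one, Real.rpow_one,
        Real.rpow_neg zero_le_two]
      field_simp
    rw [mul_assoc n]
    refine mul_le_mul_of_nonneg_left ?_ hn.le
    refine (Real.rpow_le_rpow (div_nonneg a3.1 (by linarith)) e1 hγ0.le).trans (le_of_eq ?_)
    rw [Real.mul_rpow (by positivity) (by positivity), ← Real.rpow_mul a4.le]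
    congr 2
    ring
  by_contra hcon
  push Not at hcon
  set δ := min (2 * γ - 1) 1 with hδ
  have hδ0 : 0 < δ := lt_min (by linarith) one_pos
  have key : ∀ k : ℕ, Dec Φ (k * δ) := by
    intro k
    induction k with
    | zero =>
      refine ⟨|A| + 1, by positivity, h0.mono fun s hs => ?_⟩
      simp only [Nat.cast_zero, zero_mul, neg_zero, Real.rpow_zero, mul_one]
      linarith [hs.2, le_abs_self A]
    | succ k ih =>
      have h1 : k * δ ≤ 1 := not_lt.1 fun h1 => hcon _ h1 ih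
      have h2 : 0 ≤ k * δ := by positivity
      refine (step _ ih).mono ?_
      push_cast
      rcases le_total γ 1 with h3 | h3
      · nlinarith [min_le_left (2 * γ - 1) 1]
      · nlinarith [min_le_right (2 * γ - 1) 1]
  obtain ⟨k, hk⟩ := exists_nat_gt (1 / δ)
  exact hcon _ ((div_lt_iff₀ hδ0).1 hk) (key k)

variable {E : Type*} [NormedAddCommGroup E] [InnerProductSpace ℝ E] [FiniteDimensional ℝ E]
  [MeasurableSpace E] [BorelSpace E]
variable {m : ℕ} {N : ℝ → Measure E} {T : ℝ → E → Submodule ℝ E} {H : ℝ → E → E} {s₀ : ℝ}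
  {κ : Measure E}

/-- the constant in the static inequality is uniform -/
lemma loj_uniform (h : RF m N T H s₀) {γ : ℝ} (hγ0 : 0 < γ)
    (hL : ∀ U : Ultrafilter ℝ, (U : Filter ℝ) ≤ nearF m N T H κ →
      Tendsto (dd N T H) U (𝓝 0) →
      ∃ C : ℝ, ∀ᶠ s in (U : Filter ℝ), FA (N s) - FA κ ≤ C * dd N T H s ^ γ) :
    ∃ n : ℕ, ∀ᶠ s in nearF m N T H κ, FA (N s) - FA κ ≤ n * dd N T H s ^ γ := by
  refine exists_uniform (fun n n' s hn hs => hs.trans ?_) fun U hU => ?_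
  · exact mul_le_mul_of_nonneg_right (by exact_mod_cast hn) (Real.rpow_nonneg dis_nonneg _)
  by_cases h0 : Tendsto (dd N T H) U (𝓝 0)
  · obtain ⟨C, hC⟩ := hL U hU h0
    obtain ⟨n, hn⟩ := exists_nat_ge C
    exact ⟨n, hC.mono fun s hs =>
      hs.trans (mul_le_mul_of_nonneg_right hn (Real.rpow_nonneg dis_nonneg _))⟩
  · rw [Metric.tendsto_nhds] at h0
    push Not at h0
    obtain ⟨δ, hδ, h0⟩ := h0
    have hδγ : 0 < δ ^ γ := Real.rpow_pos_of_pos hδ _
    obtain ⟨n, hn⟩ := exists_nat_ge (FA (N s₀) / δ ^ γ)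
    rw [div_le_iff₀ hδγ] at hn
    refine ⟨n, ?_⟩
    filter_upwards [h0, (hU.trans nearF_atTop) (eventually_ge_atTop s₀)] with s h2 h3
    rw [dist_zero_right, Real.norm_of_nonneg dis_nonneg] at h2
    have h4 := h.FA_anti le_rfl h3
    have h5 := RF.FA_nonneg κ
    have h6 : (n : ℝ) * δ ^ γ ≤ n * dd N T H s ^ γ :=
      mul_le_mul_of_nonneg_left (Real.rpow_le_rpow hδ.le h2 hγ0.le) n.cast_nonneg
    linarith

/-- **The rate.** -/
theorem rate (h : RF m N T H s₀) [IsLocallyFiniteMeasure κ]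
    (hc : ∀ φ : E → ℝ, Continuous φ → HasCompactSupport φ →
      Tendsto (fun s => ∫ x, φ x ∂(N s)) atTop (𝓝 (∫ x, φ x ∂κ))) {γ n : ℝ} (hγ : 1 / 2 < γ)
    (hn : 0 < n) (hL : ∀ᶠ s in nearF m N T H κ, FA (N s) - FA κ ≤ n * dd N T H s ^ γ) :
    ∃ α C : ℝ, 0 < α ∧ 0 < C ∧ Integrable rho κ ∧ ∀ᶠ s in atTop,
      (0 ≤ FA (N s) - FA κ ∧ FA (N s) - FA κ ≤ C * s ^ (-(1 + α))) ∧
      ∀ f : E → ℝ, ContDiff ℝ 1 f → (∀ x, |f x| ≤ 1) → (∀ x, ‖fderiv ℝ f x‖ ≤ 1) →
        |∫ x, f x * rho x ∂(N s) - ∫ x, f x * rho x ∂κ| ≤ C * s ^ (-α) := by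
  have hγ0 : 0 < γ := by linarith
  set l : Filter ℝ := atTop ⊓ 𝓟 {s | GSlice m (N s) (T s) (H s)} with hl
  have hl1 : l ≤ nearF m N T H κ := tendsto_nearF (t := id) inf_le_left
    (mem_inf_of_right (mem_principal_self _)) fun φ a b => (hc φ a b).mono_left inf_le_left
  have hl2 : l.NeBot := by
    refine frequently_iff_neBot.1 (frequently_atTop.2 fun a => ?_)
    obtain ⟨s, h1, h2, -⟩ := exists_not_of_not_ae h (le_max_right a s₀) (p := fun _ => False)
      (fun h0 => by rw [ae_iff] at h0; simp at h0)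
    exact ⟨s, (le_max_left _ _).trans h1.1, h2⟩
  obtain ⟨-, hF0⟩ := tendsto_FA h tendsto_natCast_atTop_atTop
    (fun φ a b => (hc φ a b).comp tendsto_natCast_atTop_atTop)
  set Φ : ℝ → ℝ := fun s => FA (N s) - FA κ with hΦ
  obtain ⟨s₁, hs₁⟩ := eventually_atTop.1
    ((eventually_inf_principal.1 (hl1 hL)).and (eventually_ge_atTop s₀))
  have hae : ∀ a b, s₁ ≤ a → a ≤ b →
      ∀ᵐ s ∂(volume.restrict (Icc a b)), Φ s ≤ n * dd N T H s ^ γ := fun a b ha hab => by
    filter_upwards [h.ae_gslice (hs₁ a ha).2 hab, ae_restrict_mem measurableSet_Icc] with s h1 h2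
    exact (hs₁ s (ha.trans h2.1)).1 h1
  have hΦ0 : ∀ s, s₁ ≤ s → 0 ≤ Φ s := fun s hs => sub_nonneg.2 (hF0 s (hs₁ s hs).2)
  have hanti : ∀ a b, s₁ ≤ a → a ≤ b → Φ b ≤ Φ a := fun a b ha hab =>
    sub_le_sub_right (h.FA_anti (hs₁ a ha).2 hab) _
  obtain ⟨β, hβ, C, hC, hdec⟩ := exists_dec (Φ := Φ) (A := Φ s₁) hγ hn
    ((eventually_ge_atTop s₁).mono fun s hs => ⟨hΦ0 s hs, hanti _ _ le_rfl hs⟩)
    ((eventually_ge_atTop s₁).mono fun a ha b hab => by
      have hb := hΦ0 b (ha.trans hab.le)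
      obtain ⟨h1, h2⟩ := h.dis_int (hs₁ a ha).2 hab.le
      have h3 : ∫ _ in a..b, (Φ b / n) ^ γ⁻¹ ≤ ∫ s in a..b, dd N T H s := by
        refine intervalIntegral.integral_mono_ae_restrict hab.le intervalIntegrable_const h1 ?_
        filter_upwards [hae a b ha hab.le, ae_restrict_mem measurableSet_Icc] with s h4 h5
        rw [Real.rpow_inv_le_iff_of_pos (div_nonneg hb hn.le) dis_nonneg hγ0, div_le_iff₀' hn]
        exact (hanti s b (ha.trans h5.1) h5.2).trans h4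
      rw [intervalIntegral.integral_const, smul_eq_mul] at h3
      rw [← div_le_iff₀' hn, ← Real.rpow_inv_le_iff_of_pos (div_nonneg hb hn.le)
        (div_nonneg (hΦ0 a ha) (by linarith)) hγ0, le_div_iff₀' (by linarith)]
      simp only [hΦ] at hb ⊢
      linarith)
  set θ : ℝ := (2 * γ)⁻¹ with hθ
  have hθ0 : 0 < θ := by positivity
  have hθ1 : θ < 1 := inv_lt_one_of_one_lt₀ (by linarith)
  obtain ⟨K, hK0, hK⟩ := length_le (C := n ^ θ) hθ0 hθ1 (by positivity)
  set α := min (β - 1) (β * (1 - θ)) with hα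
  have hα0 : 0 < α := lt_min (by linarith) (mul_pos (by linarith) (by linarith))
  refine ⟨α, √(FA (N s₀)) * K * C ^ (1 - θ) + C, hα0, by positivity,
    by simpa using (h.conv ((Ultrafilter.of_le l).trans hl1)).mom_lim 0, ?_⟩
  filter_upwards [hdec, eventually_ge_atTop s₁, eventually_ge_atTop 1] with a a1 a2 a3
  have a4 : ∀ x, α ≤ x → a ^ (-x) ≤ a ^ (-α) := fun x hx =>
    Real.rpow_le_rpow_of_exponent_le a3 (neg_le_neg hx)
  have a5 : 0 ≤ √(FA (N s₀)) * K * C ^ (1 - θ) := by positivity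
  refine ⟨⟨hΦ0 a a2, a1.trans ?_⟩, fun f hf hA hB => ?_⟩
  · exact mul_le_mul (by linarith) (Real.rpow_le_rpow_of_exponent_le a3
      (by linarith [min_le_left (β - 1) (β * (1 - θ))])) (by positivity) (by positivity)
  have h1 := (((h.lim_PB (κ := κ) hf.continuous (PB.of_bound (C := 1) hA)).mono_left hl1).const_sub
    (∫ x, f x * rho x ∂(N a))).abs
  refine le_of_tendsto h1 ?_
  filter_upwards [(eventually_ge_atTop a).filter_mono (inf_le_left : l ≤ atTop)] with b hab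
  have h2 := hK Φ (dd N T H) a b (C * a ^ (-β)) hab (by positivity)
    (h.dis_int (hs₁ a a2).2 hab).1 (fun _ => dis_nonneg)
    (fun s hs t _ hst => hanti s t (a2.trans hs.1) hst) (hΦ0 b (a2.trans hab)) a1
    (fun s hs => by
      have := (h.dis_int (hs₁ s (a2.trans hs.1)).2 hs.2).2
      simp only [hΦ]; linarith)
    (by
      filter_upwards [hae a b a2 hab, ae_restrict_mem measurableSet_Icc] with s h4 h5
      have hd : 0 ≤ dd N T H s := dis_nonneg
      refine (Real.rpow_le_rpow (hΦ0 s (a2.trans h5.1)) h4 hθ0.le).trans (le_of_eq ?_)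
      rw [Real.mul_rpow hn.le (Real.rpow_nonneg hd γ), ← Real.rpow_mul hd, Real.sqrt_eq_rpow, hθ]
      congr 2
      field_simp)
  rw [Real.mul_rpow hC.le (by positivity), ← Real.rpow_mul (by linarith), neg_mul] at h2
  have h3 := move_le' h hf hA hB (hs₁ a a2).2 hab
  have h4 := move_le' h hf.neg (A := 1) (B := 1) (fun x => by rw [abs_neg]; exact hA x)
    (fun x => by rw [fderiv_fun_neg, norm_neg]; exact hB x) (hs₁ a a2).2 hab
  simp only [neg_mul, integral_neg] at h4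
  have h5 : √(FA (N s₀)) * ∫ s in a..b, √(dd N T H s) ≤
      √(FA (N s₀)) * K * C ^ (1 - θ) * a ^ (-α) := by
    rw [mul_assoc, mul_assoc]
    refine mul_le_mul_of_nonneg_left (h2.trans ?_) (Real.sqrt_nonneg _)
    gcongr
    exact min_le_right _ _
  have h6 : FA (N a) - FA (N b) ≤ C * a ^ (-α) := by
    have h7 := hΦ0 b (a2.trans hab)
    have h8 := mul_le_mul_of_nonneg_left
      (a4 β (by linarith [min_le_left (β - 1) (β * (1 - θ))])) hC.le
    simp only [hΦ] at h7 a1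
    linarith
  rw [abs_le]
  constructor <;> linarith

/-- the inequality near the zero measure -/
lemma FA_le_dis {μ : Measure E} {T : E → Submodule ℝ E} {H : E → E} (hS : GSlice 2 μ T H)
    (h0 : ∀ᵐ x ∂μ, 4 ≤ ‖x‖) : FA μ ≤ dis μ T H := by
  have h1 := hS.wfv (X := fun x => x) contDiff_id PG.id'.b0 PG.id'.b1
  have i1 := hS.integrable_div (X := fun x => x) contDiff_id PG.id'.b1
  have i2 := hS.integrable_PB (PG.id'.inner' PG.id').cont.aestronglyMeasurable
    (PG.id'.inner' PG.id').b0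
  have i3 : Integrable (fun x => ⟪x, vel T H x⟫ * rho x) μ :=
    hS.integrable_inner_vel continuous_id.aestronglyMeasurable PG.id'.b0
  have i4 : Integrable (fun x => ‖vel T H x‖ ^ 2 * rho x) μ := by simpa using hS.vsq 0
  have i5 : Integrable (fun x => rho x) μ := by simpa using hS.mom 0
  have i6 : Integrable
      (fun x => (Vale.Agent.P214.divAlong (T x) (fun x => x) x - 1 / 2 * ⟪x, x⟫) * rho x) μ := by
    simp only [sub_mul, mul_assoc]
    exact i1.sub (i2.const_mul (1 / 2))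
  have i7 : Integrable (fun x => ⟪x, vel T H x⟫ * rho x +
      (Vale.Agent.P214.divAlong (T x) (fun x => x) x - 1 / 2 * ⟪x, x⟫) * rho x) μ := i3.add i6
  have h2 : ∫ x, rho x ∂μ ≤ ∫ x, (‖vel T H x‖ ^ 2 * rho x - (⟪x, vel T H x⟫ * rho x +
      (Vale.Agent.P214.divAlong (T x) (fun x => x) x - 1 / 2 * ⟪x, x⟫) * rho x)) ∂μ := by
    refine integral_mono_ae i5 (i4.sub i7) ?_
    filter_upwards [h0, hS.mc.dim] with x a1 a2
    rw [divAlong_id, a2, real_inner_self_eq_norm_sq]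
    have a3 := real_inner_le_norm x (vel T H x)
    have a4 : 1 ≤ ‖vel T H x‖ ^ 2 - (⟪x, vel T H x⟫ + (((2 : ℕ) : ℝ) - 1 / 2 * ‖x‖ ^ 2)) := by
      push_cast
      nlinarith [sq_nonneg (‖vel T H x‖ - ‖x‖ / 2)]
    nlinarith [rho_pos x]
  rw [integral_sub i4 i7, integral_add i3 i6, h1] at h2
  simpa [FA, dis] using h2

end Vale.Agent.N218.Rate
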