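import Vale.Agent.P218S.St

/-! The norm of the second fundamental form, singular points of a smooth flow, planes. -/

open Set Filter Topology
open scoped RealInnerProductSpace

namespace Vale.Agent.N218.St

open Vale.Agent.P218FS.St

/-- the second fundamental form `II_ij`: the normal part of `∂_i ∂_j f` -/
noncomputable def sff (f : R2 → R3) (u : R2) (i j : Fin 2) : R3 :=
  normalPart f u (pd (pd f j) i u)

/-- `|A|² = g^ik g^jl ⟨II_ij, II_kl⟩` -/
noncomputable def normSqAAt (f : R2 → R3) (u : R2) : ℝ :=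
  ∑ i, ∑ j, ∑ k, ∑ l, (metric f u)⁻¹ i k * (metric f u)⁻¹ j l * ⟪sff f u i j, sff f u k l⟫

/-- `|A|²` of `φ : N → ℝ³` at `p`, computed in the chart at `p` -/
noncomputable def normSqA {N : Type*} [TopologicalSpace N] [ChartedSpace R2 N] (φ : N → R3)
    (p : N) : ℝ :=
  normSqAAt (fun u => φ ((chartAt R2 p).symm u)) (chartAt R2 p p)

/-- `(x₀, t₀)` is a singular point of the flow: there are points `F(t_i, p_i) → x₀` with
`t_i ↑ t₀` at which `|A|² → ∞` -/
def IsSingular {N : Type*} [TopologicalSpace N] [ChartedSpace R2 N] (F : ℝ → N → R3) (x₀ : R3)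
    (t₀ : ℝ) : Prop :=
  ∃ (t : ℕ → ℝ) (p : ℕ → N), (∀ i, t i < t₀) ∧ Tendsto t atTop (𝓝 t₀) ∧
    Tendsto (fun i => F (t i) (p i)) atTop (𝓝 x₀) ∧
    Tendsto (fun i => normSqA (F (t i)) (p i)) atTop atTop

/-- `S` is a plane through the origin -/
def IsPlane (S : Set R3) : Prop := ∃ e : R3, e ≠ 0 ∧ S = {x | ⟪x, e⟫ = 0}

end Vale.Agent.N218.St
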