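import Vale.Agent.P218G.St
import Vale.Agent.N218.RSt

/-! Locally smooth convergence of the rescalings of a weak flow, with a logarithmic rate. -/

open MeasureTheory Set Filter

namespace Vale.Agent.N218.WSt

open Vale.Agent.P218 (rescaled)
open Vale.Agent.P218G.St (hm)
open Vale.Agent.P218FS.St (R3)
open Vale.Agent.P218S.St (shrinkingSurface)
open Vale.Agent.N218.RSt (SmoothRate)

/-- the rescalings `μ^λ` about `(x₀, t₀)` converge locally smoothly, with multiplicity one and with
the rate `(log λ)^{-α}`, on `ℝ³ × (-∞, 0)` to `s ↦ √(-s) S`: there are moving surfaces `M λ` which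
converge in this way, and in each compact set `K` of space-time at negative times `μ^λ` is the area
measure of `M λ` for all large `λ` -/
def SmoothlyAtRate (α : ℝ) (μ : ℝ → Measure R3) (x₀ : R3) (t₀ : ℝ) (S : Set R3) : Prop :=
  ∃ M : ℝ → ℝ → Set R3, SmoothRate α M (shrinkingSurface S) ∧
    ∀ K : Set (ℝ × R3), IsCompact K → (∀ p ∈ K, p.1 < 0) → ∀ᶠ lam : ℝ in atTop, ∀ s,
      (rescaled 2 μ x₀ t₀ lam s).restrict {y | (s, y) ∈ K} = hm (M lam s ∩ {y | (s, y) ∈ K})

end Vale.Agent.N218.WSt
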