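import Vale.Agent.N218.RMain
import Vale.Agent.N218.WSt
import Vale.Agent.P218S18.Fin
import Vale.Agent.P218R24.Core
import Vale.Agent.P218L.Fin

/-! The logarithmic rate for weak flows. -/

open MeasureTheory Set Filter Topology Metric
open scoped ENNReal NNReal

namespace Vale.Agent.N218.Rate

open Vale.Agent.P218 Vale.Agent.P218G Vale.Agent.P218G.Lit Vale.Agent.P218G.Rg
open Vale.Agent.P218G.Dyn Vale.Agent.P218G.GL
open Vale.Agent.P218FT (E3 IsSurf IsMCF IsShr AreaRatio LGB InC ssFlow)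
open Vale.Agent.P218F.Dyn (hm)
open Vale.Agent.P218.H552 (NN)
open Vale.Agent.P218.H313 (rho)
open Vale.Agent.P218.H313.A1 (dil NN_half)
open Vale.Agent.P218S.St (shrinkingSurface)

lemma mem_support_dil {lam : ℝ} (hl : 0 < lam) (x₀ y : E3) (m : Measure E3) :
    y ∈ (dil 2 lam x₀ m).support ↔ x₀ + lam⁻¹ • y ∈ m.support := by
  have h1 : map (fun x : E3 => lam • (x - x₀)) (𝓝 (x₀ + lam⁻¹ • y)) = 𝓝 y := by
    refine (((Homeomorph.subRight x₀).trans (Homeomorph.smulOfNeZero lam hl.ne')).map_nhds_eq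
      (x₀ + lam⁻¹ • y)).trans (congrArg _ ?_)
    simp [smul_smul, hl.ne']
  have h2 : ∀ U, 0 < dil 2 lam x₀ m U ↔ 0 < m ((fun x : E3 => lam • (x - x₀)) ⁻¹' U) := fun U => by
    rw [dil, Measure.smul_apply, (P218FT.Sc.embDn hl.ne' x₀).map_apply, smul_eq_mul,
      ENNReal.mul_pos_iff, and_iff_right (ENNReal.ofReal_pos.2 (by positivity))]
  simp only [Measure.mem_support_iff_forall, h2]
  refine ⟨fun h U hU => ?_, fun h U hU => h _ (by rwa [← mem_map, h1])⟩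
  have h3 := h _ (h1 ▸ image_mem_map hU)
  rwa [preimage_image_eq _ (P218FT.Sc.embDn hl.ne' x₀).injective] at h3

variable {μ : ℝ → Measure E3} {x₀ : E3} {t₀ : ℝ} {S : Set E3}

/-- some tangent flow is a smooth shrinker of multiplicity one with the local Gauss-Bonnet
estimate -/
def Model (μ : ℝ → Measure E3) (x₀ : E3) (t₀ : ℝ) : Prop :=
  ∃ S, IsShr S ∧ (∀ D, AreaRatio D S → ∃ G, LGB G S) ∧ hm S ∈ tangentSlices 2 μ x₀ t₀

variable (hμ : IsIntegralBrakkeFlow 2 μ) (hU : IsUnitRegular μ) (ht : 0 < t₀)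
include hμ hU ht

lemma model_smooth {R : ℝ} (hR : μ 0 (closedBall 0 R)ᶜ = 0) {a : ℝ} (ha : a < t₀)
    (h : ∀ t ∈ Ioo a t₀, IsRegularTime μ t) : Model μ x₀ t₀ := by
  have h0 := mass_lt hμ hR
  set b := max a (t₀ / 2) with hb
  have hb0 : 0 < b := lt_max_of_lt_right (half_pos ht)
  have hbt : b < t₀ := max_lt ha (half_lt_self ht)
  have h3 : Ioo b t₀ ⊆ Ioo a t₀ := Ioo_subset_Ioo_left (le_max_left _ _)
  have h4 : ∀ a : ℝ, 0 < a → ∃ D, GS μ a D := fun a ha => ⟨_, gs_proof μ hμ h0 a ha⟩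
  have h5 : regT μ b t₀ = Ioo b t₀ := Set.ext fun t => ⟨fun h' => h'.1, fun h' => ⟨h', h t (h3 h')⟩⟩
  have h6 : IsMCF (Spt μ) (Ioo b t₀) := h5 ▸ Br.mcf h4 hb0.le (h5 ▸ isOpen_Ioo)
  obtain ⟨S, D, G, e1, e2, e3⟩ := exists_shr gs_proof bdd_proof weakWhite_all convW_all hμ h0 hR hU
    (g := totalGenus (Spt μ ((b + t₀) / 2))) hb0 hbt
    (Eventually.of_forall fun t h' => h t (h3 h')) (fun t h7 h8 N hN h9 => by
      have h11 : hm N = hm (Spt μ t) := h9.symm.trans (Br.eq_hm h4 hb0.le ⟨h7, h8⟩)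
      have h12 : IsSurf (Spt μ t) := h6.isSurf h7
      rw [(subset_of_hm hN h12.1 h11).antisymm (subset_of_hm h12 hN.1 h11.symm)]
      exact (genusConst_proof _ b t₀ R h6 (fun t h' => bdd_proof μ hμ h0 R hR t (hb0.trans h'.1))
        t h7 _ ⟨by linarith, by linarith⟩).le) x₀
  exact ⟨S, e1, fun _ _ => ⟨G, by simpa only [ss_one] using e2.lgb (-1) (by norm_num)⟩, e3⟩

lemma model_cyclic (h0 : μ 0 univ < ⊤) (hc : IsCyclic μ) {r : ℝ} (hr : 0 < r) (hrt : r ^ 2 ≤ t₀)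
    (hd : densityRatio 2 μ x₀ t₀ r < 2 * (om0 / (4 * Real.pi))) : Model μ x₀ t₀ := by
  have h1 : 0 < r ^ 2 := by positivity
  rw [densityRatio_eq, ← mul_div_assoc, div_lt_div_iff_of_pos_right (by positivity)] at hd
  have h2 := mono0_proof μ hμ h0 x₀ t₀ (t₀ - r ^ 2) (t₀ - r ^ 2 / 2) (by linarith) (by linarith)
    (by linarith)
  rw [sub_sub_cancel t₀ (r ^ 2)] at h2
  obtain ⟨S, e1, e2, e3⟩ := gc_of GC.core_proof μ hμ h0 hU hc x₀ t₀ ht (t₀ - r ^ 2 / 2)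
    (by linarith) (by linarith) (h2.trans_lt hd)
  exact ⟨S, e1, fun D hD => BG.lgbB_proof S D e1 hD e2, e3⟩

omit hU in
/-- all the cases lead to a model -/
theorem model (hU : St.IsUnitRegular μ) (hR : ∃ R : ℝ, μ 0 (closedBall 0 R)ᶜ = 0)
    (h : (∃ a < t₀, ∀ t ∈ Ioo a t₀, St.IsRegularTime μ t) ∨ P218L.St.IsAlmostRegularAt μ x₀ t₀ ∨
      (∃ S, IsSelfShrinker S ∧ (HasFiniteGenus S ∨ BddGeom S) ∧ hm S ∈ tangentSlices 2 μ x₀ t₀) ∨
      (IsCyclic μ ∧ ∃ r : ℝ, 0 < r ∧ r ^ 2 ≤ t₀ ∧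
        densityRatio 2 μ x₀ t₀ r < 2 * (om0 / (4 * Real.pi))) ∨
      (IsCyclic μ ∧ ∃ κ ∈ tangentSlices 2 μ x₀ t₀, P218R24.St.ConesBelow κ 2)) :
    Model μ x₀ t₀ := by
  obtain ⟨R, hR⟩ := hR
  rcases h with ⟨a, ha, h⟩ | ⟨⟨a, ha, h1⟩, g, h2⟩ | ⟨S, h1, h2, h3⟩ | ⟨h1, r, h2, h3, h4⟩ |
    ⟨hc, κ, hκ, H⟩
  · exact model_smooth hμ hU.lit ht hR ha fun t h' => (St.isRegularTime_iff μ t).1 (h t h')
  · obtain ⟨S, D, G, e1, e2, e3⟩ := P218L.exists_shr (x₀ := x₀) hμ hR hU.lit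
      (a := max a (t₀ / 2)) (g := g) (lt_max_of_lt_right (half_pos ht))
      (max_lt ha (half_lt_self ht)) (h1.mono fun t h h' => (St.isRegularTime_iff μ t).1
        (h (Ioo_subset_Ioo_left (le_max_left _ _) h')))
      fun K => (h2 K).mono fun t h h' => h ((St.isRegularTime_iff μ t).2 h')
    exact ⟨S, e1, fun _ _ => ⟨G, by simpa only [ss_one] using e2.lgb (-1) (by norm_num)⟩, e3⟩
  · exact ⟨S, (isShr_iff S).1 h1, fun D hD => h2.elim (finGenus_proof S D h1.1 hD)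
      (BG.lgbB_proof S D ((isShr_iff S).1 h1) hD), h3⟩
  · exact model_cyclic hμ hU.lit ht (mass_lt hμ hR) h1 h2 h3 h4
  · obtain ⟨S, a1, a2, a3⟩ := P218R24.case_two hμ hU ⟨R, hR⟩ x₀ t₀ ht ⟨κ, hκ, Or.inl ⟨hc, H⟩⟩
    exact ⟨S, (isShr_iff S).1 a1, fun D hD => BG.lgbB_proof S D ((isShr_iff S).1 a1) hD a2, a3⟩

theorem weak_rate (h0 : μ 0 univ < ⊤) (h : Model μ x₀ t₀) :
    TangentFlowUnique 2 μ x₀ t₀ ∧ ∃ (S : Set E3) (α : ℝ), IsSelfShrinker S ∧ BddGeom S ∧ 0 < α ∧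
      ConvergesTo μ x₀ t₀ S ∧ WSt.SmoothlyAtRate α μ x₀ t₀ S ∧ Integrable rho (hm S) ∧
      ∃ C : ℝ, ∀ᶠ lam in atTop, IsFiniteMeasure (rescaled 2 μ x₀ t₀ lam (-1)) ∧
        (∀ f : E3 → ℝ, ContDiff ℝ 1 f → (∀ x, |f x| ≤ 1) → (∀ x, ‖fderiv ℝ f x‖ ≤ 1) →
          |∫ x, f x * rho x ∂(rescaled 2 μ x₀ t₀ lam (-1)) - ∫ x, f x * rho x ∂(hm S)| ≤
            C * Real.log lam ^ (-α)) ∧
        0 ≤ ∫ x, rho x ∂(rescaled 2 μ x₀ t₀ lam (-1)) - ∫ x, rho x ∂(hm S) ∧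
        ∫ x, rho x ∂(rescaled 2 μ x₀ t₀ lam (-1)) - ∫ x, rho x ∂(hm S) ≤
          C * Real.log lam ^ (-(1 + α)) := by
  obtain ⟨S, hS, hL, hκ⟩ := h
  obtain ⟨T, H, hB, hsl⟩ := H313.A1.exists_BF_slice hμ
  have h1 := gs_proof μ hμ h0 _ (half_pos ht)
  have hE := ent_slice hB h0 ht h1 (half_lt_self ht) hκ
  obtain ⟨G, hL⟩ := hL _ hE.ratio
  obtain ⟨D, hD⟩ := class_proof S _ G hS hE hL
  have hSt := P218F.Top.static_of_LS P218F.Fin.ls D G S hS hD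
  have hc := agen_conv gs_proof glue_proof weakWhite_all hμ h0 hU ht hS.1 hSt hκ
  obtain ⟨ED⟩ := P218F.Ends.ends_proof D G S hS hD
  have hG : BddGeom S := ED.twoPt.imp fun _ => Exists.imp fun _ h => ⟨h.1, h.2.2⟩
  obtain ⟨g1, g2, -⟩ := glue_proof μ fun a ha => ⟨_, gs_proof μ hμ h0 a ha⟩
  obtain ⟨ε, r, C, hε, hr, hr1, -, h2⟩ := weakWhite_all ((μ 0).real univ / (t₀ / 2))
  have hc1 : ∀ φ : E3 → ℝ, Continuous φ → HasCompactSupport φ →
      Tendsto (fun s => ∫ x, φ x ∂(NN 2 μ x₀ t₀ (s / 2))) atTop (𝓝 (∫ x, φ x ∂(hm S))) :=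
    fun φ a b => ss_one S ▸ (hc (-1) (by norm_num) φ a b).comp
      (Real.tendsto_exp_atTop.comp (tendsto_id.atTop_div_const two_pos))
  have hn : atTop ≤ nearW (fun s => NN 2 μ x₀ t₀ (s / 2)) (hm S) := le_inf le_rfl
    (le_iInf fun φ => tendsto_iff_comap.1 (hc1 φ φ.continuous φ.hasCompactSupport))
  have hrf := rf_of_bf hB (hsl.mono fun t a b _ => a b) h0 x₀ ht
  obtain ⟨α, hα, hI, ⟨C', hC', h6⟩, h7⟩ := core hrf hS.1 hSt hG hc1 fun R => by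
    obtain ⟨ρ, r0, r1, h3⟩ := Rg.low_ev (x₀ := x₀) hB h0 ht h1 (half_lt_self ht) hS.1 hE
      (14 * (|R| + 1)) hε
    refine ⟨r * ρ, C / ρ, by positivity, (h3.filter_mono hn).mono fun σ ⟨a1, a2⟩ => ?_⟩
    have e0 := Real.exp_pos (σ / 2)
    have a3 := fun (y : E3) (hy : ‖y‖ ≤ 14 * (|R| + 1)) => h2 μ hμ h0 hU _ _ _ _ (div_pos r0 e0)
      (half_pos ht).le h1 a1 (a2 y hy) _ ⟨sub_le_self _ (sq_nonneg _), le_rfl⟩
      (x₀ + (Real.exp (σ / 2))⁻¹ • y) (by rw [sub_self, norm_zero]; positivity)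
    rw [NN_half]
    refine smIn_dil (surfOn_slice g1 _) (g2 _) e0 (mul_le_one₀ hr1 r0.le r1)
      (fun y hy => (a3 y hy.le).1) fun y hy h => ?_
    rw [mul_div_assoc, div_mul]
    exact (a3 y (by linarith [le_abs_self R, abs_nonneg R])).2 h
  refine ⟨hc.unique hS.1, S, α / 2, (isShr_iff S).2 hS, hG, by positivity, hc.lit,
    ⟨_, smoothRate hα (P218S18.smooth hμ h0 hU ht hS.1 hc) fun R a b hb => haus_time
      (A := fun s => (NN 2 μ x₀ t₀ (s / 2)).support) hα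
      (fun R => (h7 R).imp fun _ h => ⟨h.1, h.2.mono fun _ h => h.1⟩) hb ?_,
      fun K hK hn => P218S18.meas_compact hμ h0 hU ht hS.1 hc hK hn⟩, hI, C', ?_⟩
  · obtain ⟨ε', -, h8⟩ := rs_ibf ((μ 0).real univ / (t₀ / 2))
    have h9 := h8 μ _ hμ h0 hU (half_pos ht).le h1
    filter_upwards [P218S18.reg_compact hμ h0 hU ht hS.1 hc
      ((isCompact_Icc (a := a) (b := b)).prod (isCompact_closedBall (0 : E3) R))
      fun p hp => hp.1.2.trans_lt hb, eventually_gt_atTop 0] with lam a1 a2 τ hτ y hy hyR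
    have b0 : 0 < -τ := by linarith [hτ.2]
    have b1 : 0 < √(-τ) := Real.sqrt_pos.2 b0
    have a3 := h9.scale a2 x₀ t₀
    have a4 := a1 (mk_mem_prod hτ (mem_closedBall_zero_iff.2 hyR))
    obtain ⟨w, hw⟩ := (surfOn_slice a3.mcf τ).2 y a4 hy
    have a5 : y ∈ (rescaled 2 μ x₀ t₀ lam τ).support := by
      refine Measure.support_mono ((a3.meas τ).symm.trans_le Measure.restrict_le_self)
        ((Measure.mem_support_iff_forall y).2 fun V hV => ?_)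
      refine (pos_iff_ne_zero.2 (Gl.area_pos hw hy (inter_mem hV ((a3.mcf.isOpen.preimage
        (continuous_const.prodMk continuous_id)).mem_nhds a4)))).trans_le
        (le_trans (measure_mono ?_) (Measure.le_restrict_apply _ _))
      exact fun z hz => ⟨hz.2.1, hz.1, hz.2.2⟩
    rw [mul_div_cancel_left₀ _ two_ne_zero, NN, Real.exp_log (div_pos a2 b1)]
    refine (mem_support_dil (div_pos a2 b1) x₀ _ _).2 ?_
    rw [smul_smul, inv_div, div_pow, Real.sq_sqrt b0.le, div_div_eq_mul_div,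
      show √(-τ) / lam * (√(-τ))⁻¹ = lam⁻¹ by field_simp, neg_mul_neg, one_mul]
    exact (mem_support_dil a2 x₀ _ _).1 a5
  · filter_upwards [two_log.eventually (h6.and ((eventually_ge_atTop _).mono hrf.fin)),
      eventually_gt_atTop 1, Real.tendsto_log_atTop.eventually_ge_atTop 1] with lam ⟨a1, a0⟩ a2 a3
    rw [mul_div_cancel_left₀ _ two_ne_zero, NN, Real.exp_log (by linarith)] at a0 a1
    refine ⟨a0, fun f b1 b2 b3 => (a1.2 f b1 b2 b3).trans ?_, a1.1.1, a1.1.2.trans ?_⟩ <;>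
      exact mul_le_mul_of_nonneg_left ((two_log_le a2 (by linarith)).trans
        (Real.rpow_le_rpow_of_exponent_le a3 (by linarith))) hC'.le

end Vale.Agent.N218.Rate
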